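import Vale.Agent.P275CW.Alg2

/-!
# P275, block NUM: the curvature of the bundle of two commuting automorphisms (algebra)
-/

set_option linter.all false

open Matrix P275CW P275CW.DG

noncomputable section

namespace Vale.Agent.P275NM

variable {Ω : Type} [Ring Ω] [Algebra ℂ Ω] {D : DG Ω} {n κ κ' : Type} [Fintype n] [DecidableEq n]
  [Fintype κ] [Fintype κ'] {e e' x y : Ω} {i : ℤ} {X Y Z : Matrix n n Ω}

theorem cm0 (hx : x ∈ D.G 0) (hy : y ∈ D.G i) : x * y = y * x := by simpa using D.cm hx hy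

theorem cm1 (hx : x ∈ D.G 1) (hy : y ∈ D.G 1) : x * y = -(y * x) := by simpa using D.cm hx hy

theorem sq1 (hx : x ∈ D.G 1) : x * x = 0 := eq_zero_of_eq_neg (cm1 hx hx)

theorem sm_mem {j k : ℤ} (hx : x ∈ D.G i) (hX : X ∈ D.M j n n) (h : i + j = k) :
    x • X ∈ D.M k n n := fun a b => h ▸ D.mul hx (hX a b)

theorem mul_sm0 (hX : X ∈ D.M 0 n n) (hx : x ∈ D.G i) (Y : Matrix n n Ω) :
    X * (x • Y) = x • (X * Y) := by
  ext a b
  simp only [mul_apply, smul_apply, smul_eq_mul, Finset.mul_sum, ← mul_assoc, cm0 (hX _ _) hx]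

theorem mul_sm0' (hX : X ∈ D.M i n n) (hx : x ∈ D.G 0) (Y : Matrix n n Ω) :
    X * (x • Y) = x • (X * Y) := by
  ext a b
  simp only [mul_apply, smul_apply, smul_eq_mul, Finset.mul_sum, ← mul_assoc, cm0 hx (hX _ _)]

theorem mul_sm1 (hX : X ∈ D.M 1 n n) (hx : x ∈ D.G 1) (Y : Matrix n n Ω) :
    X * (x • Y) = -(x • (X * Y)) := by
  ext a b
  simp only [mul_apply, smul_apply, Matrix.neg_apply, smul_eq_mul, Finset.mul_sum, ← mul_assoc,
    cm1 (hX _ _) hx, neg_mul, Finset.sum_neg_distrib]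

theorem dm_sm0 (hx : x ∈ D.G 0) (X : Matrix n n Ω) : D.dm (x • X) = D.d x • X + x • D.dm X := by
  ext a b
  simpa [dm_apply] using D.lb (X a b) hx

variable (D e e')

/-- one forms along `e`, `e'` -/
def J1 (X : Matrix n n Ω) : Prop := ∃ a ∈ D.M 0 n n, ∃ b ∈ D.M 0 n n, X = e • a + e' • b

/-- two forms along `e`, `e'` -/
def J2 (X : Matrix n n Ω) : Prop := ∃ c ∈ D.M 0 n n, X = (e * e') • c

variable {D e e'}

theorem J2.add (h : J2 D e e' X) (h' : J2 D e e' Y) : J2 D e e' (X + Y) := by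
  obtain ⟨c, hc, rfl⟩ := h
  obtain ⟨c', hc', rfl⟩ := h'
  exact ⟨_, add_mem hc hc', (smul_add _ _ _).symm⟩

theorem J2.neg (h : J2 D e e' X) : J2 D e e' (-X) := by
  obtain ⟨c, hc, rfl⟩ := h
  exact ⟨_, neg_mem hc, (smul_neg _ _).symm⟩

theorem J2.sum {F : κ → Matrix n n Ω} (h : ∀ a, J2 D e e' (F a)) : J2 D e e' (∑ a, F a) :=
  Finset.sum_induction _ _ (fun _ _ => J2.add) ⟨0, zero_mem _, (smul_zero _).symm⟩ fun a _ => h a

theorem J1.of (hX : X ∈ D.M 0 n n) : J1 D e e' (e • X) := ⟨X, hX, 0, zero_mem _, by simp⟩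

variable (he : e ∈ D.G 1) (he' : e' ∈ D.G 1)
include he he'

theorem J2.sm (h : J2 D e e' X) (hx : x ∈ D.G 0) : J2 D e e' (x • X) := by
  obtain ⟨c, hc, rfl⟩ := h
  exact ⟨_, sm_mem hx hc rfl, by rw [smul_smul, smul_smul, cm0 hx (D.mul he he')]⟩

theorem J2.left (h : J2 D e e' X) (hY : Y ∈ D.M 0 n n) : J2 D e e' (Y * X) := by
  obtain ⟨c, hc, rfl⟩ := h
  exact ⟨_, M.mul hY hc rfl, mul_sm0 hY (D.mul he he') _⟩

omit he he' in
theorem J2.right (h : J2 D e e' X) (hY : Y ∈ D.M 0 n n) : J2 D e e' (X * Y) := by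
  obtain ⟨c, hc, rfl⟩ := h
  exact ⟨_, M.mul hc hY rfl, smul_mul _ _ _⟩

theorem J1.mem (h : J1 D e e' X) : X ∈ D.M 1 n n := by
  obtain ⟨a, ha, b, hb, rfl⟩ := h
  exact add_mem (sm_mem he ha rfl) (sm_mem he' hb rfl)

theorem J1.left (h : J1 D e e' X) (hY : Y ∈ D.M 0 n n) : J1 D e e' (Y * X) := by
  obtain ⟨a, ha, b, hb, rfl⟩ := h
  exact ⟨_, M.mul hY ha rfl, _, M.mul hY hb rfl, by rw [mul_add, mul_sm0 hY he, mul_sm0 hY he']⟩

theorem j_mul {a b a' b' : Matrix n n Ω} (ha : a ∈ D.M 0 n n) (hb : b ∈ D.M 0 n n) :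
    (e • a + e' • b) * (e • a' + e' • b') = (e * e') • (a * b' - b * a') := by
  simp only [add_mul, mul_add, smul_mul, mul_sm0 ha he, mul_sm0 ha he', mul_sm0 hb he,
    mul_sm0 hb he', smul_smul, sq1 he, sq1 he', cm1 he' he, zero_smul, neg_smul, smul_sub]
  abel

theorem J1.mul (h : J1 D e e' X) (h' : J1 D e e' Y) : J2 D e e' (X * Y) := by
  obtain ⟨a, ha, b, hb, rfl⟩ := h
  obtain ⟨a', ha', b', hb', rfl⟩ := h'
  exact ⟨_, sub_mem (M.mul ha hb' rfl) (M.mul hb ha' rfl), j_mul he he' ha hb⟩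

theorem J2.mul1 (h : J2 D e e' X) (h' : J1 D e e' Y) (hx : x ∈ D.G 1) : X * (x • Y) = 0 := by
  obtain ⟨c, hc, rfl⟩ := h
  obtain ⟨a, ha, b, hb, rfl⟩ := h'
  have h1 : e * e' * x * e = 0 := by
    rw [mul_assoc, cm1 hx he, mul_neg, mul_assoc, ← mul_assoc e', cm1 he' he]
    simp only [neg_mul, mul_neg, ← mul_assoc, sq1 he, zero_mul, neg_zero]
  have h2 : e * e' * x * e' = 0 := by
    rw [mul_assoc, cm1 hx he', mul_neg, mul_assoc, ← mul_assoc e', sq1 he']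
    simp
  rw [smul_mul, mul_sm0 hc hx, mul_add, mul_sm0 hc he, mul_sm0 hc he', smul_smul, smul_add,
    smul_smul, smul_smul, h1, h2, zero_smul, zero_smul, add_zero]

theorem J2.mul2 (h : J2 D e e' X) (h' : J2 D e e' Y) : X * Y = 0 := by
  obtain ⟨c, hc, rfl⟩ := h
  obtain ⟨a, ha, rfl⟩ := h'
  have h1 : e * e' * (e * e') = 0 := by
    rw [mul_assoc, ← mul_assoc e', cm1 he' he]
    simp only [neg_mul, mul_neg, ← mul_assoc, sq1 he, zero_mul, neg_zero]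
  rw [smul_mul, mul_sm0 hc (D.mul he he'), smul_smul, h1, zero_smul]

theorem J2.mem (h : J2 D e e' X) : X ∈ D.M 2 n n := by
  obtain ⟨c, hc, rfl⟩ := h
  exact sm_mem (D.mul he he') hc rfl

/-- the curvature of an average of connections along `e`, `e'` -/
theorem tr_cur {φ : κ → Ω} (hφ : ∀ b, φ b ∈ D.G 0) {α β : κ → Matrix n n Ω}
    (hα : ∀ b, α b ∈ D.M 0 n n) (hβ : ∀ b, β b ∈ D.M 0 n n)
    (hd : ∀ b, J2 D e e' (D.dm (e • α b + e' • β b))) {A : Matrix n n Ω}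
    (hA : A = ∑ b, φ b • (e • α b + e' • β b)) :
    trace (D.cur A * D.cur A) = -∑ b, ∑ c, D.d (φ b) * D.d (φ c) * (e * e') *
      (trace (α b * β c) - trace (β b * α c)) := by
  have j : ∀ b, J1 D e e' (e • α b + e' • β b) := fun b => ⟨_, hα b, _, hβ b, rfl⟩
  have jA : J1 D e e' A := ⟨∑ b, φ b • α b, sum_mem fun b _ => sm_mem (hφ b) (hα b) rfl,
    ∑ b, φ b • β b, sum_mem fun b _ => sm_mem (hφ b) (hβ b) rfl, by
      simp only [hA, smul_add, Finset.sum_add_distrib, Finset.smul_sum, smul_smul,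
        cm0 (hφ _) he, cm0 (hφ _) he']⟩
  have dφ : ∀ b, D.d (φ b) ∈ D.G 1 := fun b => D.dG (hφ b)
  obtain ⟨F, hF⟩ : ∃ F, F = ∑ b, D.d (φ b) • (e • α b + e' • β b) := ⟨_, rfl⟩
  obtain ⟨E, hE⟩ : ∃ E, E = ∑ b, φ b • D.dm (e • α b + e' • β b) + A * A := ⟨_, rfl⟩
  have jE : J2 D e e' E := hE ▸ (J2.sum fun b => (hd b).sm he he' (hφ b)).add (jA.mul he he' jA)
  have mF : F ∈ D.M 2 n n := hF ▸ sum_mem fun b _ => sm_mem (dφ b) ((j b).mem he he') rfl
  have e1 : D.cur A = F + E := by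
    rw [cur, hE, hF, ← add_assoc, ← Finset.sum_add_distrib]
    congr 1
    rw [hA, map_sum]
    exact Finset.sum_congr rfl fun b _ => dm_sm0 (hφ b) _
  have e2 : E * F = 0 := by
    rw [hF, Finset.mul_sum]
    exact Finset.sum_eq_zero fun b _ => jE.mul1 he he' (j b) (dφ b)
  rw [e1, add_mul, mul_add, mul_add, trace_add, trace_add, trace_add,
    tr_ev mF (jE.mem he he') (by decide), e2, jE.mul2 he he' jE, trace_zero, add_zero, add_zero,
    add_zero, hF, Finset.sum_mul, trace_sum, ← Finset.sum_neg_distrib]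
  refine Finset.sum_congr rfl fun b _ => ?_
  rw [Finset.mul_sum, trace_sum, ← Finset.sum_neg_distrib]
  refine Finset.sum_congr rfl fun c _ => ?_
  rw [smul_mul, mul_sm1 ((j b).mem he he') (dφ c), j_mul he he' (hα b) (hβ b), smul_neg, smul_smul,
    smul_smul, trace_neg, trace_smul, trace_sub, smul_eq_mul]

omit he he'

theorem bil {x T : κ → Ω} (hx : ∀ b, x b ∈ D.G 1) (h0 : ∑ b, x b = 0) (μ ν : κ → ℂ) (w y : Ω) :
    ∑ b, ∑ c, x b * x c * w * (T c - T b + (μ b * ν c - ν b * μ c) • y) =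
      (2 : ℂ) • ((∑ b, μ b • x b) * (∑ b, ν b • x b) * w * y) := by
  have h1 : ∑ b, ∑ c, x b * x c * w * T c = 0 := by
    simp only [mul_assoc, ← Finset.mul_sum, ← Finset.sum_mul, h0, zero_mul]
  have h2 : ∑ b, ∑ c, x b * x c * w * T b = 0 := by
    simp only [mul_assoc, ← Finset.mul_sum, ← Finset.sum_mul, h0, zero_mul, mul_zero,
      Finset.sum_const_zero]
  have h3 : ∀ μ ν : κ → ℂ, ∑ b, ∑ c, x b * x c * w * (μ b * ν c) • y =
      (∑ b, μ b • x b) * (∑ b, ν b • x b) * w * y := fun μ ν => by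
    rw [Finset.sum_mul_sum]
    simp only [Finset.sum_mul, smul_mul_assoc, mul_smul_comm, smul_smul]
    exact Finset.sum_congr rfl fun _ _ => Finset.sum_congr rfl fun _ _ => by rw [mul_comm (ν _)]
  have m : ∀ μ : κ → ℂ, ∑ b, μ b • x b ∈ D.G 1 := fun μ =>
    sum_mem fun b _ => Submodule.smul_mem _ _ (hx b)
  simp only [mul_add, mul_sub, sub_smul, Finset.sum_add_distrib, Finset.sum_sub_distrib, h1, h2,
    h3, cm1 (m ν) (m μ), neg_mul, two_smul]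
  abel

theorem sum_d {θ : κ → Ω} (hθ : ∀ q, θ q ∈ D.G 0) (h1 : ∑ q, θ q * θ q = 1) :
    ∑ q, θ q * D.d (θ q) = 0 := by
  have := congrArg D.d h1
  rw [map_sum, d_one] at this
  refine eq_zero_of_eq_neg (eq_neg_of_add_eq_zero_left ?_)
  rw [← Finset.sum_add_distrib, ← this]
  refine Finset.sum_congr rfl fun q _ => ?_
  rw [D.lb _ (hθ q), Int.negOnePow_zero, one_smul, cm0 (hθ q) (D.dG (hθ q))]

/-- the canonical idempotent in a local frame -/
theorem k2_loc [DecidableEq κ] {θ : κ → Ω} (hθ : ∀ q, θ q ∈ D.G 0) (h1 : ∑ q, θ q * θ q = 1)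
    {U V : κ → Matrix n n Ω} (hU : ∀ q, U q ∈ D.M 0 n n) (hV : ∀ q, V q ∈ D.M 0 n n)
    (h : ∀ q, U q * V q = 1) {P : Matrix (κ × n) (κ × n) Ω}
    (hP : ∀ p q, P p q = θ p.1 * θ q.1 * (V p.1 * U q.1) p.2 q.2) {A : Matrix n n Ω}
    (hA : A = ∑ q, (θ q * θ q) • (U q * D.dm (V q))) :
    D.k2 P = trace (D.cur A * D.cur A) := by
  have key : ∀ (W : κ → Matrix n n Ω), (of fun a (q : κ × n) => (θ q.1 • U q.1) a q.2) *
      (of fun (q : κ × n) a => W q.1 q.2 a) = ∑ q, θ q • (U q * W q) := fun W => by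
    ext a b
    simp only [mul_apply, of_apply, Fintype.sum_prod_type, sum_apply, smul_apply, smul_eq_mul,
      Finset.mul_sum, mul_assoc]
  have := (k_loc (D := D) (P := P) (ι := of fun (q : κ × n) a => (θ q.1 • V q.1) q.2 a)
    (π := of fun a (q : κ × n) => (θ q.1 • U q.1) a q.2)
    (fun q a => sm_mem (hθ _) (hV _) rfl _ _) (fun a q => sm_mem (hθ _) (hU _) rfl _ _) ?_ ?_).2
  · refine this.trans (congrArg (fun A => trace (D.cur A * D.cur A))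
      ((key fun q => D.dm (θ q • V q)).trans ?_))
    simp only [dm_sm0 (hθ _), mul_add, mul_sm0 (hU _) (D.dG (hθ _)), mul_sm0 (hU _) (hθ _), h,
      smul_add, smul_smul, Finset.sum_add_distrib, ← Finset.sum_smul, sum_d hθ h1, zero_smul,
      zero_add, ← hA]
  · ext p q
    rw [hP, mul_assoc, ← smul_eq_mul, ← smul_eq_mul, ← smul_apply, ← smul_apply,
      ← mul_sm0 (hV _) (hθ _), ← smul_mul]
    rfl
  · refine (key fun q => θ q • V q).trans ?_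
    simp only [mul_sm0 (hU _) (hθ _), h, smul_smul, ← Finset.sum_smul, h1, one_smul]

/-- the second form of the bundle defined by commuting automorphisms -/
theorem k2_tor [DecidableEq κ] [DecidableEq κ'] (he : e ∈ D.G 1) (he' : e' ∈ D.G 1)
    {ρ : κ → Ω} {η η1 η2 : κ' → Ω} (hρ : ∀ b, ρ b ∈ D.G 0) (hη : ∀ k, η k ∈ D.G 0)
    (sρ : ∑ b, ρ b * ρ b = 1) (sη : ∑ k, η k * η k = 1) (m1 : ∀ k, η1 k ∈ D.G 0)
    (m2 : ∀ k, η2 k ∈ D.G 0) (dη : ∀ k, D.d (η k * η k) = e * η1 k + e' * η2 k)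
    {Γ Γ' Γ1 : κ' → Matrix n n Ω} (hΓ : ∀ k, Γ k ∈ D.M 0 n n) (hΓ' : ∀ k, Γ' k ∈ D.M 0 n n)
    (hΓ1 : ∀ k, Γ1 k ∈ D.M 0 n n) (iΓ : ∀ k, Γ k * Γ' k = 1) (dΓ : ∀ k, J1 D e e' (D.dm (Γ k)))
    (dΓ' : ∀ k, D.dm (Γ' k) = e • Γ1 k) {H H' H1 H2 : κ → Matrix n n Ω}
    (hH : ∀ b, H b ∈ D.M 0 n n) (hH' : ∀ b, H' b ∈ D.M 0 n n) (hH1 : ∀ b, H1 b ∈ D.M 0 n n)
    (hH2 : ∀ b, H2 b ∈ D.M 0 n n) (iH : ∀ b, H b * H' b = 1) (dH : ∀ b, J1 D e e' (D.dm (H b)))
    (dH' : ∀ b, D.dm (H' b) = e • H1 b + e' • H2 b)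
    (com : ∀ b c, H' b * (H c * H2 c) * H b = H c * H2 c) {μ ν : κ → ℂ} {y : Ω}
    (num : ∀ b c, trace (H b * H1 b * (H c * H2 c)) - trace (H b * H2 b * (H c * H1 c)) =
      (μ b * ν c - ν b * μ c) • y) {P : Matrix ((κ × κ') × n) ((κ × κ') × n) Ω}
    (hP : ∀ p q, P p q = ρ p.1.1 * η p.1.2 * (ρ q.1.1 * η q.1.2) *
      (Γ' p.1.2 * H' p.1.1 * (H q.1.1 * Γ q.1.2)) p.2 q.2) :
    D.k2 P = (-2 : ℂ) • ((∑ b, μ b • D.d (ρ b * ρ b)) * (∑ b, ν b • D.d (ρ b * ρ b)) *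
      (e * e') * y) := by
  have η0 : ∀ k, η k * η k ∈ D.G 0 := fun k => D.mul (hη k) (hη k)
  have ρ0 : ∀ b, ρ b * ρ b ∈ D.G 0 := fun b => D.mul (hρ b) (hρ b)
  have sq : ∀ b k, ρ b * η k * (ρ b * η k) = ρ b * ρ b * (η k * η k) := fun b k => by
    rw [mul_assoc, ← mul_assoc (η k), ← cm0 (hρ b) (hη k), mul_assoc, mul_assoc]
  obtain ⟨a, ha⟩ : ∃ a, a = ∑ k, (η k * η k) • (Γ k * Γ1 k) := ⟨_, rfl⟩
  have a0 : a ∈ D.M 0 n n := ha ▸ sum_mem fun k _ => sm_mem (η0 k) (M.mul (hΓ k) (hΓ1 k) rfl) rfl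
  have ea : e • a = ∑ k, (η k * η k) • (Γ k * D.dm (Γ' k)) := by
    simp only [ha, dΓ', Finset.smul_sum, mul_sm0 (hΓ _) he, smul_smul, cm0 (η0 _) he]
  have da : J2 D e e' (D.dm (e • a)) := by
    rw [ea, map_sum]
    refine J2.sum fun k => ?_
    rw [dm_sm0 (η0 k), dm_ev (hΓ k) Even.zero, dm_dm, mul_zero, add_zero, dη, dΓ']
    refine J2.add ⟨-(η2 k • (Γ k * Γ1 k)),
      neg_mem (sm_mem (m2 k) (M.mul (hΓ k) (hΓ1 k) rfl) rfl), ?_⟩
      (((dΓ k).mul he he' (J1.of (hΓ1 k))).sm he he' (η0 k))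
    rw [mul_sm0 (hΓ k) he, smul_smul, add_mul, mul_assoc, mul_assoc, cm0 (m1 k) he, cm0 (m2 k) he,
      ← mul_assoc, ← mul_assoc, sq1 he, cm1 he' he, zero_mul, zero_add, neg_mul, neg_smul,
      smul_neg, smul_smul]
  have eω : ∀ b, e • (H b * a * H' b + H b * H1 b) + e' • (H b * H2 b) =
      H b * (e • a) * H' b + H b * D.dm (H' b) := fun b => by
    rw [dH', mul_add, mul_sm0 (hH b) he, mul_sm0 (hH b) he, mul_sm0 (hH b) he', smul_mul, smul_add,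
      add_assoc]
  have j' : ∀ b, J1 D e e' (D.dm (H' b)) := fun b => ⟨_, hH1 b, _, hH2 b, dH' b⟩
  rw [k2_loc (θ := fun q : κ × κ' => ρ q.1 * η q.2) (fun q => D.mul (hρ _) (hη _))
    (by simp only [sq, Fintype.sum_prod_type, ← Finset.mul_sum, sη, mul_one, sρ])
    (U := fun q => H q.1 * Γ q.2) (V := fun q => Γ' q.2 * H' q.1)
    (fun q => M.mul (hH _) (hΓ _) rfl) (fun q => M.mul (hΓ' _) (hH' _) rfl)
    (fun q => by rw [mul_assoc, ← mul_assoc (Γ _), iΓ, one_mul, iH]) hP rfl,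
    tr_cur he he' ρ0 (α := fun b => H b * a * H' b + H b * H1 b) (β := fun b => H b * H2 b)
      (fun b => add_mem (M.mul (M.mul (hH b) a0 rfl) (hH' b) rfl) (M.mul (hH b) (hH1 b) rfl))
      (fun b => M.mul (hH b) (hH2 b) rfl) (fun b => ?_) ?_, neg_smul,
    ← bil (T := fun c => trace (a * (H c * H2 c))) (fun b => D.dG (ρ0 b))
      (by rw [← map_sum, sρ, d_one])]
  · refine congrArg _ (Finset.sum_congr rfl fun b _ => Finset.sum_congr rfl fun c _ => ?_)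
    have t : ∀ b c, trace (H b * a * H' b * (H c * H2 c)) = trace (a * (H c * H2 c)) :=
      fun b c => by
      rw [mul_assoc, mul_assoc, tr_ev (hH b) (M.mul a0 (M.mul (hH' b)
        (M.mul (hH c) (hH2 c) rfl) rfl) rfl) (by decide), mul_assoc, com]
    rw [← num, add_mul, mul_add, trace_add, trace_add, t, tr_ev (M.mul (hH b) (hH2 b) rfl)
      (M.mul (M.mul (hH c) a0 rfl) (hH' c) rfl) (by decide), t]
    congr 1
    abel
  · simp only [eω, sq, Fintype.sum_prod_type, mul_smul, ← Finset.smul_sum]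
    refine Finset.sum_congr rfl fun b _ => congrArg _ ?_
    simp only [← mul_smul, dm_ev (hΓ' _) Even.zero, mul_add, smul_add, Finset.sum_add_distrib, ea,
      Finset.mul_sum, Finset.sum_mul, mul_sm0 (hH _) (η0 _), smul_mul, mul_assoc]
    congr 1
    simp only [← mul_assoc (Γ _), iΓ, one_mul, ← Finset.sum_smul, sη, one_smul]
  · have ja := J1.of (e := e) (e' := e') a0
    rw [eω, map_add, dm_od (M.mul (hH b) (ja.mem he he') rfl) odd_one, dm_ev (hH b) Even.zero,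
      dm_ev (hH b) Even.zero, dm_dm, mul_zero, add_zero, sub_eq_add_neg]
    exact (((((dH b).mul he he' ja).add (da.left he he' (hH b))).right (hH' b)).add
      ((ja.left he he' (hH b)).mul he he' (j' b)).neg).add ((dH b).mul he he' (j' b))

end Vale.Agent.P275NM
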