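import Vale.Agent.P275NM.Main
import Vale.Agent.P275MM.Unv

/-!
# P275, block CURVE: the cohomology of the curve
-/

set_option linter.all false
set_option backward.isDefEq.respectTransparency false

open scoped Manifold ContDiff Topology
open Filter Set Function
open Vale.Agent.P272.K Vale.Agent.P275MC Vale.Agent.P275Z P275CC
open Vale.Agent.P275OI Vale.Agent.P275CW
open P275S (Hd)

noncomputable section

namespace Vale.Agent.P275NM

variable {C : Type} [TopologicalSpace C] [Nc C]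

theorem bas_of_lam {κ : HH C} {lam : HH C →ₗ[ℂ] ℂ} (L : Lam κ lam) :
    ∃ (ι : Type) (_ : Fintype ι) (b : ι → HH C) (dg : ι → ℤ) (top : ι),
    (Bijective fun r : ι → ℂ => ∑ j, r j • b j) ∧ (∀ j, b j ∈ Hd ℂ (TopCat.of C) (dg j)) ∧
      b top = κ ∧ dg top = 2 ∧ ∀ j, j ≠ top → dg j ≤ 1 := by
  classical
  obtain ⟨ι, _, d, c, hm, hb⟩ := L.fd
  obtain ⟨t, ht⟩ : ∃ t, lam (c t) ≠ 0 := by
    by_contra! h
    obtain ⟨r, e⟩ := hb.2 κ
    have := L.one
    simp only [← e, map_sum, map_smul, h, smul_zero, Finset.sum_const_zero, zero_ne_one] at this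
  have d2 : d t = 2 := by_contra fun h => ht (L.off _ h _ (hm t))
  have e := L.top _ d2.ge _ (hm t)
  let s : ι → ℂ := fun j => if j = t then (lam (c t))⁻¹ else 1
  have hs : ∀ j, s j ≠ 0 := fun j => by
    simp only [s]
    split_ifs
    exacts [inv_ne_zero ht, one_ne_zero]
  have k : s t • c t = κ := by
    simp only [s, if_pos]
    exact (inv_smul_eq_iff₀ ht).2 e
  refine ⟨ι, inferInstance, fun j => s j • c j, d, t, ?_, fun j => Submodule.smul_mem _ _ (hm j), k, d2,
    fun j hj => not_lt.1 fun h => ?_⟩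
  · simp only [smul_smul]
    exact hb.comp (Equiv.piCongrRight fun j => Equiv.mulRight₀ (s j) (hs j)).bijective
  · have := @hb.1 (Pi.single j 1) (Pi.single t (lam (c j) * s t)) (by
      simp only [Pi.single_apply, ite_smul, zero_smul, Finset.sum_ite_eq', Finset.mem_univ, if_true]
      rw [one_smul, mul_smul, k]
      exact L.top _ h _ (hm j))
    simpa [hj] using congrFun this j

variable [ConnectedSpace C] (A : P275GC.At C)
include A

theorem ex_lam {κ : HH C} (hκ : κ ∈ Hd ℂ (TopCat.of C) 2) (h0 : κ ≠ 0) : ∃ lam, Lam κ lam :=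
  letI := P275MK.csA A
  haveI := (isA A).mf
  haveI := A.compactSpace
  ⟨_, lam_mf hκ h0⟩

/-- **CURV** -/
theorem curv : CURV C := fun _ hκ h0 => let ⟨_, L⟩ := ex_lam A hκ h0; bas_of_lam L

theorem ex_kap : ∃ κ ∈ Hd ℂ (TopCat.of C) 2, κ ≠ 0 := by
  letI := P275MK.csA A
  haveI := (isA A).mf
  haveI := A.compactSpace
  obtain ⟨x⟩ : Nonempty C := inferInstance
  obtain ⟨u, hu, h⟩ := ex_itc_one (d := 1) (univ_mem (f := 𝓝 x))
  exact ⟨_, cl_mem _ _, cl_ne_zero hu.2 (top_Zf hu.2) (h.trans_ne one_ne_zero)⟩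

omit A in
/-- **UNV** -/
theorem unv (h : MV0 ∧ LHP) (hm : MOD) : UNV (IsU h) :=
  P275MM.unv_of h hm fun S T => ⟨curv T.A, ex_kap T.A⟩

end Vale.Agent.P275NM
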