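import Vale.Agent.P275NM.Lp
import Vale.Agent.P275MM.Cmp
import Vale.Agent.P275CC.Tw

/-!
# P275, block NUM: the universal bundle on a torus of twists
-/

set_option linter.all false

open scoped Topology Matrix.Norms.Operator ContDiff Real
open Set Filter Metric Matrix
open Vale.Agent.P275GC Vale.Agent.P275GC.At Vale.Agent.P275MO
open Vale.Agent.P275NA (Fm Cy Mn)
open Vale.Agent.P275PG Vale.Agent.P275TW P275CC
open Vale.Agent.P275MM (Sys Hy Dc Lf IB Dc_open Dc_cov Dc_ct Dc_ball Dc_src)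

noncomputable section

namespace Vale.Agent.P275NM

variable {T ι : Type} [TopologicalSpace T]

/-- local logarithms of a map to the circle -/
structure Lg1 (U : ι → Set T) (s : ι → T → ℝ) (c : T → Circle) : Prop where
  op : ∀ a, IsOpen (U a)
  ct : ∀ a, ContinuousOn (s a) (U a)
  eq : ∀ a, ∀ p ∈ U a, Circle.exp (2 * π * s a p) = c p

/-- the difference of two logarithms -/
def mu (s : ι → T → ℝ) (a b : ι) (p : T) : ℤ := round (s b p - s a p)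

section mu

variable {U : ι → Set T} {s : ι → T → ℝ} {c : T → Circle} {a b d : ι} {p : T}

theorem Lg1.mu_eq (h : Lg1 U s c) (ha : p ∈ U a) (hb : p ∈ U b) :
    (mu s a b p : ℝ) = s b p - s a p := by
  obtain ⟨m, e⟩ := Circle.exp_eq_exp.1 ((h.eq b p hb).trans (h.eq a p ha).symm)
  have : s b p - s a p = m := mul_left_cancel₀ Real.two_pi_pos.ne' (by linear_combination e)
  rw [mu, this, round_intCast]

theorem mu_self (s : ι → T → ℝ) (a : ι) (p : T) : mu s a a p = 0 := by simp [mu]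

theorem Lg1.mu_add (h : Lg1 U s c) (ha : p ∈ U a) (hb : p ∈ U b) (hd : p ∈ U d) :
    mu s a b p + mu s b d p = mu s a d p := Int.cast_injective (α := ℝ) (by
  rw [Int.cast_add, h.mu_eq ha hb, h.mu_eq hb hd, h.mu_eq ha hd]; ring)

theorem Lg1.mu_ev (h : Lg1 U s c) (ha : p ∈ U a) (hb : p ∈ U b) :
    ∀ᶠ q in 𝓝 p, mu s a b q = mu s a b p := by
  have c1 := ((h.ct b).continuousAt ((h.op b).mem_nhds hb)).sub
    ((h.ct a).continuousAt ((h.op a).mem_nhds ha))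
  filter_upwards [(h.op a).mem_nhds ha, (h.op b).mem_nhds hb,
    c1.eventually (ball_mem_nhds _ one_pos)] with q a1 b1 e
  rw [Real.dist_eq, Pi.sub_apply, Pi.sub_apply, ← h.mu_eq a1 b1, ← h.mu_eq ha hb,
    ← Int.cast_sub, ← Int.cast_abs, ← Int.cast_one, Int.cast_lt, Int.abs_lt_one_iff] at e
  exact sub_eq_zero.1 e

end mu

variable {C : Type} [TopologicalSpace C] {n : ℕ} {A : At C} {U : ι → Set T} {s t : ι → T → ℝ}
  {c c' : T → Circle}

section vb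

variable {z : Dat C A.N n} {B B' α α' G G' : Fm A (Mn n)}

/-- the bundle defined by two commuting automorphisms -/
def tvb (cov : ∀ p, ∃ a, p ∈ U a) (hs : Lg1 U s c) (ht : Lg1 U t c') (hg : A.Cc z.g)
    (h : Lp A z B α G) (h' : Lp A z B' α' G') : VB (T × C) (Fin n) where
  ι := ι × Fin A.N
  U q := U q.1 ×ˢ (A.e q.2).source
  op q := (hs.op _).prod (A.e _).open_source
  cov x := by
    obtain ⟨a, m⟩ := cov x.1
    obtain ⟨i, m', -⟩ := A.cov x.2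
    exact ⟨(a, i), m, m'⟩
  g q q' x := ph G G' (mu s q.1 q'.1 x.1) (mu t q.1 q'.1 x.1) q.2 (A.e q.2 x.2) *
    z.g q.2 q'.2 (A.e q.2 x.2)
  ct q q' x m := by
    have e : ContinuousAt (fun y : T × C => A.e q.2 y.2) x :=
      ((A.e _).continuousAt m.1.2).comp continuousAt_snd
    have c1 := (((lp_ph h h' (mu s q.1 q'.1 x.1) (mu t q.1 q'.1 x.1)).sm.ct.at (map_src m.1.2)
      q.2).comp (f := fun y : T × C => A.e q.2 y.2) e).mul
      ((hg.an (mem_O m.1.2 m.2.2)).continuousAt.comp (f := fun y : T × C => A.e q.2 y.2) e)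
    refine (c1.congr ?_).continuousWithinAt
    filter_upwards [continuousAt_fst.eventually (hs.mu_ev m.1.1 m.2.1),
      continuousAt_fst.eventually (ht.mu_ev m.1.1 m.2.1)] with y a b
    rw [a, b]
    rfl
  id q x m := by rw [mu_self, mu_self, ph_zero, one_mul, hg.one _ _ (map_src m.2)]
  cc q q' q'' x m m' m'' := by
    have e := (lp_ph h h' (mu s q'.1 q''.1 x.1) (mu t q'.1 q''.1 x.1)).tr _ _ _ (mem_O m.2 m'.2)
    rw [tr_e m.2] at e
    rw [mul_assoc, ← mul_assoc (z.g _ _ _), ← e, mul_assoc, ← mul_assoc, ph_mul h h' (map_src m.2),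
      hs.mu_add m.1 m'.1 m''.1, ht.mu_add m.1 m'.1 m''.1,
      hg.mul _ _ _ _ (mem_O m.2 m'.2) (mem_O m.2 m''.2), tr_e m.2]

/-- the determinant of a bundle on the curve -/
def dl (hg : A.Cc z.g) : LB C where
  ι := Fin A.N
  U i := (A.e i).source
  op i := (A.e i).open_source
  cov x := (A.cov x).imp fun _ a => a.1
  g i j x := (z.g i j (A.e i x)).det
  ct i j x m := ((hg.det.an (mem_O m.1 m.2)).continuousAt.comp
    ((A.e _).continuousAt m.1)).continuousWithinAt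
  id i x m := hg.det.one _ _ (map_src m)
  cc i j k x m m' m'' := by rw [hg.det.mul _ _ _ _ (mem_O m m') (mem_O m m''), tr_e m]

theorem det_tvb (cov : ∀ p, ∃ a, p ∈ U a) (hs : Lg1 U s c) (ht : Lg1 U t c') (hg : A.Cc z.g)
    (h : Lp A z B α G) (h' : Lp A z B' α' G') :
    (tvb cov hs ht hg h h').det.Iso ((dl hg).pb ContinuousMap.snd) :=
  LB.iso_ref _ _ (tvb cov hs ht hg h h').U (fun q => q) (fun q => q.2) (tvb cov hs ht hg h h').op
    (tvb cov hs ht hg h h').cov (fun _ => subset_rfl) (fun _ _ m => m.2) fun q q' x m _ =>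
      (Matrix.det_mul _ _).trans (by rw [(lp_ph h h' _ _).det _ _ (map_src m.2), one_mul]; rfl)

end vb

variable {l : Cy A ℂ} {τ : Ty n} {x : C} {r r' : ℝ} {h1 : 1 < r} {h2 : r ≤ A.R}

theorem SIso.mono {z z' : Dat C A.N n} {B B' φ : Fm A (Mn n)} {h : Mn n}
    (f : SIso (A.res r h1 h2) z z' B B' φ h) (h1' : 1 < r') (h3 : r' ≤ r) :
    SIso (A.res r' h1' (h3.trans h2)) z z' B B' φ h :=
  have b := ball_subset_ball (x := (0 : ℂ)) h3
  ⟨f.x, fun i w a => f.df i w (b a), fun i j w a => f.law i j w (res_O.2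
    ⟨(res_O.1 a).1, b (res_O.1 a).2.1, b (res_O.1 a).2.2⟩), fun i w a => f.con i w ⟨b a.1, a.2⟩,
    fun i w a => f.det i w (b a), fun i a => f.fr i ⟨a.1, b a.2⟩, fun i w a => f.eq i w (b a)⟩

theorem Bq_shift (Q Q' : Twd A n x) (a : Fm A (Mn n)) {m m' : ℤ} {s s' t t' : ℝ}
    (e : (m : ℝ) = s' - s) (e' : (m' : ℝ) = t' - t) (i : Fin A.N) (w : ℂ) :
    Bq ((s' : ℂ) • Q + (t' : ℂ) • Q').1 a i w = m • Bq Q.1 a i w + m' • Bq Q'.1 a i w +
      Bq ((s : ℂ) • Q + (t : ℂ) • Q').1 a i w := by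
  have k : ∀ b c : ℂ, Bq (b • Q + c • Q').1 a i w = b • Bq Q.1 a i w + c • Bq Q'.1 a i w :=
    fun b c => ((BqL a i w).map_add _ _).trans
      (congrArg₂ _ ((BqL a i w).map_smul _ _) ((BqL a i w).map_smul _ _))
  rw [k, k, eq_add_of_sub_eq e.symm, eq_add_of_sub_eq e'.symm]
  simp only [Complex.ofReal_add, Complex.ofReal_intCast, add_smul, Int.cast_smul_eq_zsmul]
  abel

variable [hy : Hy A l n] {tw : Twd A n x → M0 A l τ x → M0 A l τ x} {Q Q' : Twd A n x}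
  {y : M0 A l τ x} {z : Ob A l τ} {α α' G G' : Fm A (Mn n)}

theorem ex_loc (S : Sys A l τ T) (tt : IsTw tw) (e : z.pt = y.1)
    (g : Good (A.res r h1 h2) l z.1) (cov : ∀ p, ∃ a, p ∈ U a) (hs : Lg1 U s c) (ht : Lg1 U t c')
    (hψ : ∀ a, ∀ p ∈ U a, S.f p = (tw ((s a p : ℂ) • Q + (t a p : ℂ) • Q') y).1)
    (h1' : 1 < r') (h3 : r' < r) (p : T) : ∃ (a : ι) (b : S.ι) (O : Set T) (F Φ : T → Fm A (Mn n))
      (u : T → Mn n), IsOpen O ∧ p ∈ O ∧ O ⊆ U a ∧ O ⊆ S.U b ∧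
      (∀ i, ContinuousOn (fun q : T × ℂ => F q.1 i q.2) (O ×ˢ ball 0 r')) ∧
      (∀ q ∈ O, Frm (A.res r' h1' (h3.le.trans h2))
        (Bq ((s a q : ℂ) • Q + (t a q : ℂ) • Q').1 z.1.a) (F q)) ∧
      Lf A τ.H (S.F b) (fun q => twz A z.1 (F q)) Φ u O := by
  obtain ⟨a, ma⟩ := cov p
  obtain ⟨b, mb⟩ := S.cov p
  let σ : T → Fin 2 → ℝ := fun q => ![s a q, t a q]
  have cσ : ContinuousOn σ (U a) := continuousOn_pi.2 fun k => by
    fin_cases k
    exacts [hs.ct a, ht.ct a]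
  obtain ⟨V, hV, F, c1, c2, c3⟩ := tt.fam 2 ![Q, Q'] z r r' h1' h3 h2 (σ p) (rep0 e).1 (rep0 e).2 g
  have hW : U a ∩ σ ⁻¹' V ∈ 𝓝 p := inter_mem ((hs.op a).mem_nhds ma)
    (cσ.continuousAt ((hs.op a).mem_nhds ma) hV)
  have fr : ∀ q ∈ U a ∩ σ ⁻¹' V, Frm (A.res r' h1' (h3.le.trans h2))
      (Bq ((s a q : ℂ) • Q + (t a q : ℂ) • Q').1 z.1.a) (F (σ q)) := fun q m => by
    have := c2 _ m.2
    rwa [Fin.sum_univ_two] at this
  obtain ⟨V', hV', Φ, u, f⟩ := P275MM.exists_lf (H := τ.H) (q := τ.q) (q' := τ.q) (S.fam b p mb)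
    (F' := fun q => twz A z.1 (F (σ q))) ⟨r', h1', _, _, hW,
      P275MB.FamOn.comp c3 (cσ.mono inter_subset_left) fun _ m => m.2⟩ (by
    filter_upwards [hW, (S.op b).mem_nhds mb] with q m m'
    obtain ⟨-, o, k⟩ := tt.spec _ y z r' h1' _ _ e (P275MB.Good.mono g h1' h3.le) (fr q m)
    exact ⟨S.ob b q m', o, P275MB.pt_eq_iff.1 ((S.pt b q m').trans ((hψ a q m.1).trans k))⟩)
  have i1 : interior (U a ∩ σ ⁻¹' V ∩ V' ∩ S.U b) ⊆ _ := interior_subset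
  exact ⟨a, b, _, fun q => F (σ q), Φ, u, isOpen_interior, mem_interior_iff_mem_nhds.2
    (inter_mem (inter_mem hW hV') ((S.op b).mem_nhds mb)), fun _ m => (i1 m).1.1.1,
    fun _ m => (i1 m).2, fun i => (c1 i).comp (f := fun q : T × ℂ => (σ q.1, q.2))
      ((cσ.comp continuousOn_fst fun _ m => (i1 m.1).1.1.1).prodMk continuousOn_snd)
      fun _ m => ⟨(i1 m.1).1.1.2, m.2⟩, fun q m => fr q (i1 m).1.1, f.mono fun _ m => (i1 m).1.2⟩

/-- **the universal bundle on a torus of twists** -/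
theorem li (S : Sys A l τ T) (tt : IsTw tw) (e : z.pt = y.1)
    (g : Good (A.res r h1 h2) l z.1) (cov : ∀ p, ∃ a, p ∈ U a) (hs : Lg1 U s c) (ht : Lg1 U t c')
    (hψ : ∀ a, ∀ p ∈ U a, S.f p = (tw ((s a p : ℂ) • Q + (t a p : ℂ) • Q') y).1)
    (h : Lp (A.res r h1 h2) z.1 (Bq Q.1 z.1.a) α G)
    (h' : Lp (A.res r h1 h2) z.1 (Bq Q'.1 z.1.a) α' G') :
    TB.LI univ S.tb (tvb cov hs ht g.cc h h').tb := by
  obtain ⟨r', h1', h3⟩ := exists_between h1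
  choose a b O F Φ u o1 o2 o3 o4 cF fr lf using ex_loc S tt e g cov hs ht hψ h1' h3
  have g' := P275MB.Good.mono g h1' h3.le
  refine ⟨T × Fin A.N, fun k => O k.1 ×ˢ Dc A k.2, fun k => (b k.1, k.2), fun k => (a k.1, k.2),
    fun k w => F k.1 w.1 k.2 (A.e k.2 w.2) * Φ k.1 w.1 k.2 (A.e k.2 w.2),
    fun k => (o1 _).prod (Dc_open _), fun w => ?_, fun k w m => ⟨o4 _ m.1, m.2⟩,
    fun k w m => ⟨o3 _ m.1, Dc_src h1 h2 m.2⟩, fun k => ctOn_mul ((cF k.1 k.2).comp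
      (f := fun w : T × C => (w.1, A.e k.2 w.2)) (continuousOn_fst.prodMk
        ((Dc_ct _).comp continuousOn_snd fun _ m => m.2)) fun _ m => ⟨m.1, Dc_ball h1' m.2⟩)
      ((lf _).cΦ _), fun k w m => ⟨trivial, det_mul_ne (Frm.ne (fr _ _ m.1) (Dc_ball h1' m.2) _)
        (((lf _).iso _ m.1).det m.2)⟩, ?_⟩
  · obtain ⟨i, m⟩ := Dc_cov A w.2
    exact ⟨(w.1, i), o2 _, m⟩
  rintro ⟨p, i⟩ ⟨p', j⟩ ⟨q, w⟩ m m'
  have si := (lp_ph h h' (mu s (a p) (a p') q) (mu t (a p) (a p') q)).siso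
    (B1 := Bq ((s (a p') q : ℂ) • Q + (t (a p') q : ℂ) • Q').1 z.1.a)
    (B2 := Bq ((s (a p) q : ℂ) • Q + (t (a p) q : ℂ) • Q').1 z.1.a)
    (fun i w _ => Bq_mem _ _ i w) fun i w _ =>
      Bq_shift Q Q' z.1.a (hs.mu_eq (o3 _ m.1) (o3 _ m'.1)) (ht.mu_eq (o3 _ m.1) (o3 _ m'.1)) i w
  have ib : IB A (twz A z.1 (F p' q)) (twz A z.1 (F p q)) _ 1 :=
    ⟨r', h1', _, (SIso.mono si h1' h3.le).iso g' g' (fr _ _ m'.1) (fr _ _ m.1)⟩
  obtain ⟨k, -, -, hk⟩ := IB.uniq (S.ob _ q (o4 _ m'.1)) (((lf p').iso q m'.1).trans ib)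
    ((S.ib (o4 _ m.1) (o4 _ m'.1)).trans ((lf p).iso q m.1))
  refine ⟨k, ?_⟩
  have e1 := hk i w m.2
  have e2 := ((lf p').iso q m'.1).law m.2 m'.2
  have u1 := (Frm.ne (fr _ _ m.1) (Dc_ball h1' m.2) i).isUnit
  have u2 := (Frm.ne (fr _ _ m'.1) (Dc_ball h1' m.2) i).isUnit
  change F p q i (A.e i w) * Φ p q i (A.e i w) * (S.Φ (b p) (b p') q i (A.e i w) *
    (S.F (b p') q).g i j (A.e i w)) = k • (ph G G' _ _ i (A.e i w) * z.1.g i j (A.e i w) *
      (F p' q j (A.e j w) * Φ p' q j (A.e j w)))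
  change _ = (F p' q i (A.e i w))⁻¹ * z.1.g i j (A.e i w) * F p' q j (A.tr i j (A.e i w)) * _ at e2
  rw [tr_e m.2.1] at e2
  rw [mul_assoc, ← mul_assoc (Φ p q i _), e1, smul_mul_assoc, mul_smul_comm, mul_assoc, e2]
  simp only [mul_assoc, mul_nonsing_inv_cancel_left _ _ u1, mul_nonsing_inv_cancel_left _ _ u2]
  rfl

end Vale.Agent.P275NM
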