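import Vale.Agent.P275NM.Alg
import Vale.Agent.P275NM.Top
import Vale.Agent.P275CW.Cwg
import Vale.Agent.P275KU.Cr

/-!
# P275, block NUM: the Chern-Weil form of the bundle of two commuting automorphisms
-/

set_option linter.all false
set_option backward.isDefEq.respectTransparency false

open scoped Manifold ContDiff Topology Matrix Matrix.Norms.Operator ComplexConjugate
open Filter Set Metric
open Vale.Agent.P272.K Vale.Agent.P272.K.Prod Vale.Agent.P281Z.Hg Vale.Agent.P275MC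
  Vale.Agent.P275KU Vale.Agent.P275OM Vale.Agent.P275Z Vale.Agent.P275PC P275CC P275CW
open Vale.Agent.P275GC.At
open Vale.Agent.P275NA (Fm Mn)
open Vale.Agent.P275MO (Dat)
open Vale.Agent.P275HK (cd_ent cd_dz cd_db)
open Vale.Agent.P281Z.Hm (wd_ent wb_ent an_inv an_det)

noncomputable section

namespace Vale.Agent.P275NM

section gen

variable {d : ℕ} {M : Type} [TopologicalSpace M] [ChartedSpace (Cm d) M]
  [IsManifold 𝓘(ℂ, Cm d) ω M] {x : M} {n κ : Type} [Fintype n] [DecidableEq n]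

/-- the idempotent of a bundle and of a partition of unity -/
def cP (V : VB M n) (ix : κ → V.ι) (θ : κ → M → ℂ) (x : M) : Matrix (κ × n) (κ × n) ℂ :=
  Matrix.of fun p q => θ p.1 x * (θ q.1 x * V.g (ix p.1) (ix q.1) x p.2 q.2)

theorem cw_can [Nc M] [Fintype κ] [DecidableEq κ] (h : MV0 ∧ LHP) {V : VB M n}
    (sm : ∀ i j x, x ∈ V.U i → x ∈ V.U j → SaM d x (V.g i j)) (ix : κ → V.ι) (θ : κ → M → ℂ)
    (h1 : ∀ k, SmC d (θ k)) (h2 : ∀ k x, x ∉ V.U (ix k) → ∀ᶠ y in 𝓝 x, θ k y = 0)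
    (h3 : ∀ x, ∑ k, θ k x * θ k x = 1) {F : Fr d M}
    (e : ∀ x, gq x F = (dgG d x).k2 (gM d x (cP V ix θ))) : ((thOf h).p2 V).1 = cF F := by
  have ts : ∀ k x, x ∈ tsupport (θ k) → x ∈ V.U (ix k) := fun k x m =>
    by_contra fun a => notMem_tsupport_iff_eventuallyEq.2 (h2 k x a) m
  have sp : ∀ k x, θ k x ≠ 0 → x ∈ V.U (ix k) := fun k x hx => ts k x (subset_tsupport _ hx)
  let ι : V.ι → M → Matrix (κ × n) n ℂ := fun i x =>
    Matrix.of fun p b => θ p.1 x * V.g (ix p.1) i x p.2 b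
  let π : V.ι → M → Matrix n (κ × n) ℂ := fun i x =>
    Matrix.of fun a p => θ p.1 x * V.g i (ix p.1) x a p.2
  have s1 : ∀ i, ∀ x ∈ V.U i, SaM d x (ι i) := fun i x hx p b =>
    (Sa.of (h1 _) x).cut fun k => sm _ _ x (ts _ _ k) hx p.2 b
  have s2 : ∀ i, ∀ x ∈ V.U i, SaM d x (π i) := fun i x hx a p =>
    (Sa.of (h1 _) x).cut fun k => sm _ _ x hx (ts _ _ k) a p.2
  have hP : SmM d (cP V ix θ) := smM_of fun x p q => (Sa.of (h1 _) x).cut fun k =>
    (Sa.of (h1 _) x).cut fun k' => sm _ _ x (ts _ _ k) (ts _ _ k') p.2 q.2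
  have a1 : ∀ i, ∀ x ∈ V.U i, ι i x * π i x = cP V ix θ x := fun i x hx => by
    ext p q
    simp only [ι, π, cP, Matrix.mul_apply, Matrix.of_apply]
    by_cases k : θ p.1 x = 0
    · simp [k]
    by_cases k' : θ q.1 x = 0
    · simp [k']
    rw [← V.cc _ i _ x (sp _ x k) hx (sp _ x k'), Matrix.mul_apply]
    simp only [Finset.mul_sum]
    exact Finset.sum_congr rfl fun c _ => by ring
  have a2 : ∀ i j x, x ∈ V.U i → x ∈ V.U j → π i x * ι j x = V.g i j x := fun i j x hi hj => by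
    ext a b
    have : ∀ k, ∑ c, θ k x * V.g i (ix k) x a c * (θ k x * V.g (ix k) j x c b) =
        θ k x * θ k x * V.g i j x a b := fun k => by
      by_cases e : θ k x = 0
      · simp [e]
      rw [← V.cc i _ j x hi (sp _ x e) hj, Matrix.mul_apply]
      simp only [Finset.mul_sum]
      exact Finset.sum_congr rfl fun c _ => by ring
    simp only [ι, π, Matrix.mul_apply, Matrix.of_apply, Fintype.sum_prod_type, this,
      ← Finset.sum_mul, h3, one_mul]
  have hV : Rep V (cP V ix θ) := ⟨ι, π, fun i x hx => (s1 i x hx).cont.continuousWithinAt,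
    fun i x hx => (s2 i x hx).cont.continuousWithinAt, a1, a2⟩
  have f : F = (dgF d M).k2 (fnM hP) := gq_ext fun x => by rw [e, (hom_gq x).k2, fnM_gq]
  exact f ▸ (cwg h hP hV (DG.con_std' (fnM_mem hP) (fnM_idem hP hV.idem))).2

/-- smooth near a point -/
abbrev Ev {E : Type} [NormedAddCommGroup E] [NormedSpace ℝ E] (F : ℂ → E) (z : ℂ) : Prop :=
  ∀ᶠ w in 𝓝 z, ContDiffAt ℝ ∞ F w

theorem Ev.dz {E : Type} [NormedAddCommGroup E] [NormedSpace ℝ E] [NormedSpace ℂ E]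
    [IsScalarTower ℝ ℂ E] {F : ℂ → E} {z : ℂ} (h : Ev F z) : Ev (P275NA.dz F) z :=
  h.mono fun _ a => cd_dz (by simpa using a)

theorem Ev.db {E : Type} [NormedAddCommGroup E] [NormedSpace ℝ E] [NormedSpace ℂ E]
    [IsScalarTower ℝ ℂ E] {F : ℂ → E} {z : ℂ} (h : Ev F z) : Ev (P275NA.db F) z :=
  h.mono fun _ a => cd_db (by simpa using a)

theorem ev_an {F : ℂ → Matrix n n ℂ} {z : ℂ} (h : AnalyticAt ℂ F z) : Ev F z :=
  h.eventually_analyticAt.mono fun _ a => P275GC.cd_an a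

variable [T2Space M] {f : M → ℂ} {F : ℂ → Matrix n n ℂ}

theorem Ev.saM (h : Ev F (f x)) (hf : Sa d x f) : SaM d x fun y => F (f y) := fun a b =>
  hf.comp (φ := fun w => F w a b) (h.mono fun _ k => cd_ent k a b)

theorem dm_comp (hf : Sa d x f) (h : Ev F (f x)) :
    (dgG d x).dm (gM d x fun y => F (f y)) =
      (dgG d x).d (gm d x f) • gM d x (fun y => P275NA.dz F (f y)) +
      (dgG d x).d (gm d x fun y => conj (f y)) • gM d x fun y => P275NA.db F (f y) := by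
  ext a b
  have t := hf.cont.eventually (h.mono fun _ k => k.differentiableAt (by simp))
  have e1 := t.mono fun _ k => wd_ent k 1 a b
  have e2 := t.mono fun _ k => wb_ent k 1 a b
  refine (d_gm_comp (φ := fun w => F w a b) hf (h.mono fun _ k => cd_ent k a b)
    ((h.dz.saM hf a b).congr e1) ((h.db.saM hf a b).congr e2)).trans ?_
  rw [← gm_congr e1, ← gm_congr e2, cm0 (gm_mem _) (d_gm_mem _), cm0 (gm_mem _) (d_gm_mem _)]
  rfl

theorem j1_comp (hf : Sa d x f) (h : Ev F (f x)) : J1 (dgG d x) ((dgG d x).d (gm d x f))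
    ((dgG d x).d (gm d x fun y => conj (f y))) ((dgG d x).dm (gM d x fun y => F (f y))) :=
  ⟨_, gM_mem _, _, gM_mem _, dm_comp hf h⟩

theorem sum_sq {θ : κ → M → ℂ} [Fintype κ] (h : ∀ k, Sa d x (θ k))
    (e : ∀ y, ∑ k, θ k y * θ k y = 1) : ∑ k, gm d x (θ k) * gm d x (θ k) = 1 := by
  simp only [← gm_mul (h _) (h _), ← gm_sum _ fun k _ => (h k).mul (h k), e, gm_one]

/-- the second form in terms of functions -/
theorem k2_fn {κ' : Type} [Fintype κ] [DecidableEq κ] [Fintype κ'] [DecidableEq κ']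
    (hf : Sa d x f) {ρ : κ → M → ℂ} {η : κ' → M → ℂ} {φ : κ' → ℂ → ℂ} (hρ : ∀ b, Sa d x (ρ b))
    (hη : ∀ k, Sa d x (η k)) (sρ : ∀ y, ∑ b, ρ b y * ρ b y = 1) (sη : ∀ y, ∑ k, η k y * η k y = 1)
    (hφ : ∀ k, Ev (φ k) (f x)) (eφ : ∀ k, ∀ᶠ y in 𝓝 x, η k y * η k y = φ k (f y))
    {γ : κ' → ℂ → Matrix n n ℂ} (hγ : ∀ k, AnalyticAt ℂ (γ k) (f x))
    (h0 : ∀ k, (γ k (f x)).det ≠ 0) {H H' : κ → ℂ → Matrix n n ℂ} (hH : ∀ b, Ev (H b) (f x))
    (hH' : ∀ b, Ev (H' b) (f x)) (iH : ∀ b, ∀ᶠ w in 𝓝 (f x), H b w * H' b w = 1)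
    (com : ∀ b c, ∀ᶠ w in 𝓝 (f x), H' b w * (H c w * P275NA.db (H' c) w) * H b w =
      H c w * P275NA.db (H' c) w) {μ ν : κ → ℂ} {u : ℂ → ℂ} (hu : Ev u (f x))
    (num : ∀ b c, ∀ᶠ w in 𝓝 (f x),
      (H b w * P275NA.dz (H' b) w * (H c w * P275NA.db (H' c) w)).trace -
      (H b w * P275NA.db (H' b) w * (H c w * P275NA.dz (H' c) w)).trace =
        (μ b * ν c - ν b * μ c) * u w) {P : M → Matrix ((κ × κ') × n) ((κ × κ') × n) ℂ}
    (hP : ∀ p q, ∀ᶠ y in 𝓝 x, P y p q = ρ p.1.1 y * η p.1.2 y * (ρ q.1.1 y * η q.1.2 y) *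
      ((γ p.1.2 (f y))⁻¹ * H' p.1.1 (f y) * (H q.1.1 (f y) * γ q.1.2 (f y))) p.2 q.2) :
    (dgG d x).k2 (gM d x P) = (-2 : ℂ) •
      ((∑ b, μ b • (dgG d x).d (gm d x fun y => ρ b y * ρ b y)) *
      (∑ b, ν b • (dgG d x).d (gm d x fun y => ρ b y * ρ b y)) *
      (gm d x (fun y => u (f y)) *
        ((dgG d x).d (gm d x f) * (dgG d x).d (gm d x fun y => conj (f y))))) := by
  have ct := hf.cont
  have hγ' := fun k => an_inv (hγ k) (h0 k)
  have s1 := fun k => (ev_an (hγ k)).saM hf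
  have s2 := fun k => (ev_an (hγ' k)).saM hf
  have s3 := fun b => (hH b).saM hf
  have s4 := fun b => (hH' b).saM hf
  have s5 := fun b => (hH' b).dz.saM hf
  have s6 := fun b => (hH' b).db.saM hf
  simp only [gm_mul (hρ _) (hρ _)]
  rw [cm0 (gm_mem fun y => u (f y)) ((dgG d x).mul (d_gm_mem _) (d_gm_mem _)), ← mul_assoc]
  refine k2_tor (d_gm_mem _) (d_gm_mem _) (fun _ => gm_mem _) (η := fun k => gm d x (η k))
    (fun _ => gm_mem _) (sum_sq hρ sρ) (sum_sq hη sη)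
    (η1 := fun k => gm d x fun y => P275NA.dz (φ k) (f y))
    (η2 := fun k => gm d x fun y => P275NA.db (φ k) (f y)) (fun _ => gm_mem _) (fun _ => gm_mem _)
    (fun k => ?_) (Γ := fun k => gM d x fun y => γ k (f y))
    (Γ' := fun k => gM d x fun y => (γ k (f y))⁻¹)
    (Γ1 := fun k => gM d x fun y => P275NA.dz (fun w => (γ k w)⁻¹) (f y))
    (fun _ => gM_mem _) (fun _ => gM_mem _) (fun _ => gM_mem _) (fun k => ?_)
    (fun k => j1_comp hf (ev_an (hγ k))) (fun k => ?_) (H := fun b => gM d x fun y => H b (f y))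
    (H' := fun b => gM d x fun y => H' b (f y)) (fun _ => gM_mem _) (fun _ => gM_mem _)
    (fun _ => gM_mem _) (fun _ => gM_mem _)
    (fun b => (gM_mul_eq (s3 b) (s4 b) (ct.eventually (iH b))).trans gM_one)
    (fun b => j1_comp hf (hH b)) (fun b => dm_comp hf (hH' b)) (fun b c => ?_) (fun b c => ?_)
    fun p q => ?_
  · rw [← gm_mul (hη k) (hη k), gm_congr (eφ k), d_gm_comp hf (hφ k) (hf.comp (hφ k).dz)
      (hf.comp (hφ k).db), cm0 (gm_mem _) (d_gm_mem _), cm0 (gm_mem _) (d_gm_mem _)]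
  · exact (gM_mul_eq (s1 k) (s2 k) ((ct.eventually ((an_det (hγ k)).continuousAt.eventually_ne
      (h0 k))).mono fun _ a => Matrix.mul_nonsing_inv _ a.isUnit)).trans gM_one
  · rw [dm_comp (F := fun w => (γ k w)⁻¹) hf (ev_an (hγ' k)), gM_congr (G := fun _ => 0)
      ((ct.eventually (hγ' k).eventually_analyticAt).mono fun _ a => P275HK.db_hol a), gM_zero,
      smul_zero, add_zero]
  · rw [← gM_mul (s3 c) (s6 c), ← gM_mul (s4 b) ((s3 c).mul (s6 c))]
    exact gM_mul_eq ((s4 b).mul ((s3 c).mul (s6 c))) (s3 b) (ct.eventually (com b c))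
  · have t1 := ((s3 b).mul (s5 b)).mul ((s3 c).mul (s6 c))
    have t2 := ((s3 b).mul (s6 b)).mul ((s3 c).mul (s5 c))
    rw [← gM_mul (s3 b) (s5 b), ← gM_mul (s3 c) (s6 c), ← gM_mul (s3 b) (s6 b),
      ← gM_mul (s3 c) (s5 c), ← gM_mul ((s3 b).mul (s5 b)) ((s3 c).mul (s6 c)),
      ← gM_mul ((s3 b).mul (s6 b)) ((s3 c).mul (s5 c)), ← gM_tr t1, ← gM_tr t2,
      ← gm_sub t1.tr t2.tr, ← gm_smul _ (hf.comp hu)]
    exact gm_congr (ct.eventually (num b c))
  · have t := fun (b : κ) (k : κ') => (hρ b).mul (hη k)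
    rw [← gm_mul (hρ _) (hη _), ← gm_mul (hρ _) (hη _), ← gm_mul (t _ _) (t _ _),
      ← gM_mul (s2 _) (s4 _), ← gM_mul (s3 _) (s1 _),
      ← gM_mul ((s2 _).mul (s4 _)) ((s3 _).mul (s1 _)), gM_apply, gM_apply,
      ← gm_mul ((t _ _).mul (t _ _)) (((s2 _).mul (s4 _)).mul ((s3 _).mul (s1 _)) _ _)]
    exact gm_congr (hP p q)

end gen

attribute [local instance] prodCS isManifold_prod

variable {C : Type} [TopologicalSpace C] [ChartedSpace (Cm 1) C] [IsManifold 𝓘(ℂ, Cm 1) ω C]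
  [T2Space C] {A : P275GC.At C}

/-- the square roots of the partition of unity -/
def et (A : P275GC.At C) (k : Fin A.N) (c : C) : ℂ := (A.ext k (A.η k) c : ℝ)

theorem et_off {k : Fin A.N} {c : C} (h : c ∉ (A.e k).source) : ∀ᶠ y in 𝓝 c, et A k y = 0 := by
  filter_upwards [(cpt_img (isCompact_closedBall 0 1) A.unit_sub k).isClosed.isOpen_compl.mem_nhds
    fun ⟨_, a, b⟩ => h (b ▸ map_tgt (A.unit_sub a))] with y m
  rw [et, ext_off (fun _ _ a => η_zero (not_le.1 fun b => a (mem_closedBall_zero_iff.2 b)).le) m,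
    Complex.ofReal_zero]

theorem et_sq (k : Fin A.N) (c : C) : et A k c * et A k c = A.ψ k c := by
  by_cases h : c ∈ (A.e k).source
  · rw [et, ψ, ext_src h, ext_src h, χ, sq, Complex.ofReal_mul]
  · rw [et, ψ, ext_not h, ext_not h, Complex.ofReal_zero, zero_mul]

theorem et_sm (se : ∀ i, ∀ c ∈ (A.e i).source, Sa 1 c (A.e i)) (k : Fin A.N) : SmC 1 (et A k) :=
  Sa.smC fun c => by
    by_cases h : c ∈ (A.e k).source
    · exact ((se k c h).comp (φ := fun z => (A.η k z : ℂ)) (.of_forall fun _ =>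
        P275HK.cd_ofReal (cd_η k).contDiffAt)).congr (eventually_of_mem
          ((A.e k).open_source.mem_nhds h) fun y a => by rw [et, ext_src a])
    · exact (Sa.const 0).congr ((et_off h).mono fun _ a => a.symm)

variable {T ι : Type} [TopologicalSpace T] [ChartedSpace (Cm 1) T] [IsManifold 𝓘(ℂ, Cm 1) ω T]
  [T2Space T] [Fintype ι] {n : ℕ} {U : ι → Set T} {s t : ι → T → ℝ} {c c' : T → Circle}
  {z : Dat C A.N n} {B B' α α' G G' : Fm A (Mn n)}

theorem Lp.ev (h : Lp A z B α G) {i : Fin A.N} {w : ℂ} (a : w ∈ ball (0 : ℂ) A.R) : Ev (G i) w :=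
  eventually_of_mem (isOpen_ball.mem_nhds a) fun _ b => h.sm.at b i

/-- **the second power sum of the bundle of two commuting automorphisms** -/
theorem p2_tvb [Nc (T × C)] (hh : MV0 ∧ LHP) (se : ∀ i, ∀ c ∈ (A.e i).source, Sa 1 c (A.e i))
    (cov : ∀ p, ∃ a, p ∈ U a) (hs : Lg1 U s c) (ht : Lg1 U t c') (hg : A.Cc z.g)
    (h : Lp A z B α G) (h' : Lp A z B' α' G') {ρ : ι → T → ℂ} (sm : ∀ a, SmC 1 (ρ a))
    (sup : ∀ a p, p ∉ U a → ∀ᶠ q in 𝓝 p, ρ a q = 0) (sq : ∀ p, ∑ a, ρ a p * ρ a p = 1)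
    {u : Fr 1 T} (loc : ∀ p a, p ∈ U a → gq p u =
      (∑ b, (mu s a b p : ℂ) • (dgG 1 p).d (gm 1 p fun q => ρ b q * ρ b q)) *
      ∑ b, (mu t a b p : ℂ) • (dgG 1 p).d (gm 1 p fun q => ρ b q * ρ b q)) {w : Fr 1 C}
    (hw : ∀ i, ∀ c ∈ (A.e i).source, gq c w = gm 1 c (fun y => dn B G B' G' i (A.e i y)) *
      ((dgG 1 c).d (gm 1 c (A.e i)) * (dgG 1 c).d (gm 1 c fun y => conj (A.e i y)))) :
    ((thOf hh).p2 (tvb cov hs ht hg h h')).1 =
      cF (d := 1 + 1) ((-2 : ℂ) • (pbH smo_fst u * pbH smo_snd w)) := by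
  classical
  have f1 : Smo (1 + 1) 1 (Prod.fst : T × C → T) := smo_fst
  have f2 : Smo (1 + 1) 1 (Prod.snd : T × C → C) := smo_snd
  have off : ∀ (k : ι × Fin A.N) (x : T × C), x ∉ U k.1 ×ˢ (A.e k.2).source →
      ∀ᶠ y in 𝓝 x, ρ k.1 y.1 * et A k.2 y.2 = 0 := fun k x m => by
    rcases not_and_or.1 m with m | m
    · exact (continuousAt_fst.eventually (sup _ _ m)).mono fun _ a => mul_eq_zero_of_left a _
    · exact (continuousAt_snd.eventually (et_off m)).mono fun _ a => mul_eq_zero_of_right _ a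
  have sη : ∀ c : C, ∑ k, et A k c * et A k c = 1 := fun c => by
    simp only [et_sq, ← Complex.ofReal_sum, sum_ψ, Complex.ofReal_one]
  refine cw_can hh (V := tvb cov hs ht hg h h') (fun q q' x m m' => ?_) (fun k : ι × Fin A.N => k)
    (fun k y => ρ k.1 y.1 * et A k.2 y.2) (fun k => Sa.smC fun x =>
      ((Sa.of (sm _) _).pull f1).mul ((Sa.of (et_sm se _) _).pull f2)) off (fun x => ?_) ?_
  · have hf := (se _ _ m.2).pull f2
    refine ((Ev.saM (x := x) ((lp_ph h h' (mu s q.1 q'.1 x.1) (mu t q.1 q'.1 x.1)).ev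
      (i := q.2) (map_src m.2)) hf).mul (Ev.saM (x := x) (ev_an (hg.an (mem_O m.2 m'.2))) hf)).congr ?_
    filter_upwards [continuousAt_fst.eventually (hs.mu_ev m.1 m'.1),
      continuousAt_fst.eventually (ht.mu_ev m.1 m'.1)] with y a b
    rw [← a, ← b]
    rfl
  · simp only [mul_mul_mul_comm (ρ _ _) (et A _ _), Fintype.sum_prod_type, ← Finset.mul_sum, sη,
      mul_one, sq]
  rintro ⟨p, c⟩
  obtain ⟨a, ma⟩ := cov p
  obtain ⟨i, mi, -⟩ := A.cov c
  have hf : Sa (1 + 1) (p, c) fun y => A.e i y.2 := (se i c mi).pull f2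
  have bl := isOpen_ball.eventually_mem (map_src mi)
  obtain ⟨γ, g1, g2, g3⟩ : ∃ γ : Fin A.N → ℂ → Mn n, (∀ k, AnalyticAt ℂ (γ k) (A.e i c)) ∧
      (∀ k, (γ k (A.e i c)).det ≠ 0) ∧ ∀ k, c ∈ (A.e k).source → γ k = z.g i k :=
    ⟨fun k => if c ∈ (A.e k).source then z.g i k else fun _ => 1, fun k => by
      beta_reduce
      split_ifs with m
      exacts [hg.an (mem_O mi m), analyticAt_const], fun k => by
      beta_reduce
      split_ifs with m
      exacts [hg.det.ne (mem_O mi m), Matrix.det_one.trans_ne one_ne_zero], fun k m => if_pos m⟩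
  rw [k2_fn hf (ρ := fun b y => ρ b y.1) (η := fun k y => et A k y.2)
    (φ := fun k w => (A.φ k i w : ℂ)) (fun b => (Sa.of (sm b) _).pull f1)
    (fun k => (Sa.of (et_sm se k) _).pull f2) (fun y => sq y.1) (fun y => sη y.2)
    (fun k => bl.mono fun _ b => P275HK.cd_ofReal ((sm_φ k).at b i))
    (fun k => (continuousAt_snd.eventually ((A.e i).open_source.eventually_mem mi)).mono
      fun y b => by rw [et_sq, φ, (A.e i).left_inv b]) g1 g2
    (H := fun b => ph G G' (mu s a b p) (mu t a b p) i)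
    (H' := fun b => ph G G' (-mu s a b p) (-mu t a b p) i)
    (fun b => (lp_ph h h' _ _).ev (map_src mi)) (fun b => (lp_ph h h' _ _).ev (map_src mi))
    (fun b => bl.mono fun _ m => ph_neg h h' m i _ _)
    (fun b c => bl.mono fun _ m => ph_com h h' m i _ _ _ _) (u := dn B G B' G' i)
    (bl.mono fun _ m => (dn_sm h h').at m i) (fun b c => bl.mono fun _ m => ph_num h h' m i _ _ _ _)
    fun q q' => ?_]
  · have k1 : ∀ b, Sa 1 p fun q => ρ b q * ρ b q := fun b => (Sa.of (sm b) p).mul (Sa.of (sm b) p)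
    rw [map_smul, map_mul, ← pbg_gq f1 (p, c), ← pbg_gq f2 (p, c), loc p a ma, hw i c mi]
    simp only [map_mul, map_sum, map_smul, (hom_pbg f1 (p, c)).d, (hom_pbg f2 (p, c)).d,
      pbg_gm f1 (y := (p, c)) (k1 _), pbg_gm f2 (y := (p, c)) (se i c mi),
      pbg_gm f2 (y := (p, c)) (se i c mi).conj,
      pbg_gm f2 (y := (p, c)) ((se i c mi).comp (bl.mono fun _ m => (dn_sm h h').at m i))]
  by_cases m : (p, c) ∈ U q.1.1 ×ˢ (A.e q.1.2).source
  swap
  · filter_upwards [off q.1 _ m] with y e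
    simp only [cP, Matrix.of_apply, e, zero_mul]
  by_cases m' : (p, c) ∈ U q'.1.1 ×ˢ (A.e q'.1.2).source
  swap
  · filter_upwards [off q'.1 _ m'] with y e
    simp only [cP, Matrix.of_apply, e, zero_mul, mul_zero]
  let V := tvb cov hs ht hg h h'
  have key : ∀ k : ι × Fin A.N, (p, c) ∈ V.U k → ∀ᶠ y in 𝓝 (p, c), y ∈ V.U k ∧ V.g (a, i) k y =
      ph G G' (mu s a k.1 p) (mu t a k.1 p) i (A.e i y.2) * γ k.2 (A.e i y.2) := fun k m => by
    filter_upwards [(V.op k).eventually_mem m, continuousAt_fst.eventually (hs.mu_ev ma m.1),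
      continuousAt_fst.eventually (ht.mu_ev ma m.1)] with y e1 e2 e3
    rw [g3 _ m.2, ← e2, ← e3]
    exact ⟨e1, rfl⟩
  filter_upwards [key q.1 m, key q'.1 m', (V.op (a, i)).eventually_mem (x := (p, c)) ⟨ma, mi⟩,
    hf.cont.eventually ((an_det (g1 q.1.2)).continuousAt.eventually_ne (g2 _))] with y e e' my d
  have e1 := (V.cc q.1 (a, i) q.1 y e.1 my e.1).trans (V.id _ y e.1)
  have e2 : V.g q.1 (a, i) y = (γ q.1.2 (A.e i y.2))⁻¹ *
      ph G G' (-mu s a q.1.1 p) (-mu t a q.1.1 p) i (A.e i y.2) :=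
    left_inv_eq_right_inv e1 (by
      rw [e.2, mul_assoc, Matrix.mul_nonsing_inv_cancel_left _ _ d.isUnit,
        ph_neg h h' (map_src my.2)])
  rw [← e'.2, ← e2, V.cc _ _ _ y e.1 my e'.1, mul_assoc]
  rfl

end Vale.Agent.P275NM
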