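import Vale.Agent.P275CW.Gm
import Vale.Agent.P275MC.Gy

/-!
# P275, block NUM: the torus as a complex manifold
-/

set_option linter.all false

open scoped Manifold ContDiff Topology Matrix Real
open Filter Set
open Vale.Agent.P272.K Vale.Agent.P281Z.Hg Vale.Agent.P275MC Vale.Agent.P275KU
open Vale.Agent.P275OM P275CW

noncomputable section

namespace Vale.Agent.P275NM

/-- the torus -/
abbrev T2 : Type := Circle × Circle

/-- the torus as a complex manifold, with local coordinates, a partition of unity and the form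
which measures the winding numbers -/
structure TorD where
  [cs : ChartedSpace (Cm 1) T2]
  [mf : IsManifold 𝓘(ℂ, Cm 1) ω T2]
  N : ℕ
  U : Fin N → Set T2
  op : ∀ a, IsOpen (U a)
  s : Fin N → T2 → ℝ
  t : Fin N → T2 → ℝ
  cts : ∀ a, ContinuousOn (s a) (U a)
  ctt : ∀ a, ContinuousOn (t a) (U a)
  hs : ∀ a, ∀ p ∈ U a, Circle.exp (2 * π * s a p) = p.1
  ht : ∀ a, ∀ p ∈ U a, Circle.exp (2 * π * t a p) = p.2
  ρ : Fin N → T2 → ℂ
  sm : ∀ a, SmC 1 (ρ a)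
  sup : ∀ a p, p ∉ U a → ∀ᶠ q in 𝓝 p, ρ a q = 0
  sq : ∀ p, ∑ a, ρ a p * ρ a p = 1
  u : SF 1 T2
  dg : u ∈ Dg 1 T2 2
  ne : itc 1 T2 u ≠ 0
  loc : ∀ p a (m m' : Fin N → ℤ), p ∈ U a →
    (∀ b, p ∈ U b → (m b : ℝ) = s b p - s a p ∧ (m' b : ℝ) = t b p - t a p) →
    gq p (Fr.of u) = (∑ b, (m b : ℂ) • (dgG 1 p).d (gm 1 p fun q => ρ b q * ρ b q)) *
      ∑ b, (m' b : ℂ) • (dgG 1 p).d (gm 1 p fun q => ρ b q * ρ b q)

/-- **TOR** -/
def TOR : Prop := Nonempty TorD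

end Vale.Agent.P275NM
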