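import Vale.Agent.P275TW.Main

/-!
# P275, block NUM: products of loops
-/

set_option linter.all false

open scoped Topology Matrix.Norms.Operator ContDiff ComplexConjugate
open Set Filter Metric Matrix
open Vale.Agent.P281Z.Hm Vale.Agent.P275GC Vale.Agent.P275GC.At Vale.Agent.P275MO
open Vale.Agent.P275NA (Fm Cy Mn db dz)
open Vale.Agent.P275PG Vale.Agent.P275TW

noncomputable section

namespace Vale.Agent.P275NM

variable {C : Type} [TopologicalSpace C] {n : ℕ} {A : At C} {i j : Fin A.N} {w : ℂ}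
  {z : Dat C A.N n} {B B' α α' G G' : Fm A (Mn n)}

/-- polynomials in a matrix -/
abbrev Ka (a : Mn n) : Subalgebra ℂ (Mn n) := Algebra.adjoin ℂ {a}

theorem Ka_comm {a X Y : Mn n} (hX : X ∈ Ka a) (hY : Y ∈ Ka a) : X * Y = Y * X :=
  Algebra.commute_of_mem_adjoin_singleton_of_commute hY
    (Algebra.commute_of_mem_adjoin_self hX).symm

theorem pl_mem (γ : Fin n → Fm A ℂ) (a : Fm A (Mn n)) (i : Fin A.N) (w : ℂ) :
    P275PG.pl γ a i w ∈ Ka (a i w) :=
  sum_mem fun _ _ => Subalgebra.smul_mem _ (pow_mem (Algebra.self_mem_adjoin_singleton ℂ _) _) _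

theorem Bq_mem (γ : Fin n → Fm A ℂ) (a : Fm A (Mn n)) (i : Fin A.N) (w : ℂ) :
    Bq γ a i w ∈ Ka (a i w) := sub_mem (pl_mem γ a i w) (Subalgebra.smul_mem _ (one_mem _) _)

/-- a loop which is a polynomial in the Higgs field; `α` is its derivative up to commutators -/
structure Lp (A : At C) (z : Dat C A.N n) (B α G : Fm A (Mn n)) : Prop extends Lg A z B G where
  mG : ∀ i, ∀ w ∈ ball (0 : ℂ) A.R, G i w ∈ Ka (z.a i w)
  mB : ∀ i, ∀ w ∈ ball (0 : ℂ) A.R, B i w ∈ Ka (z.a i w)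
  t1 : ∀ i, ∀ w ∈ ball (0 : ℂ) A.R, ∀ X ∈ Ka (z.a i w),
    trace ((G i w)⁻¹ * dz (G i) w * X) = trace (α i w * X)

namespace Lp

theorem un (h : Lp A z B α G) (a : w ∈ ball (0 : ℂ) A.R) (i : Fin A.N) : IsUnit (G i w).det :=
  h.det i w a ▸ isUnit_one

theorem df (h : Lp A z B α G) (a : w ∈ ball (0 : ℂ) A.R) (i : Fin A.N) :
    DifferentiableAt ℝ (G i) w := (h.sm.at a i).differentiableAt (by simp)

theorem mI (h : Lp A z B α G) (a : w ∈ ball (0 : ℂ) A.R) (i : Fin A.N) :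
    (G i w)⁻¹ ∈ Ka (z.a i w) := P275MB.inv_mem_alg (h.mG i w a) (h.un a i).ne_zero

theorem congr {B1 α1 G1 : Fm A (Mn n)} (h : Lp A z B α G)
    (e : ∀ i, ∀ w ∈ ball (0 : ℂ) A.R, B1 i w = B i w ∧ α1 i w = α i w ∧ G1 i w = G i w) :
    Lp A z B1 α1 G1 :=
  have ev : ∀ i, ∀ w ∈ ball (0 : ℂ) A.R, G1 i =ᶠ[𝓝 w] G i := fun i w a =>
    eventually_of_mem (isOpen_ball.mem_nhds a) fun y b => (e i y b).2.2
  { sm := fun i => (h.sm i).congr fun w a => (e i w a).2.2
    det := fun i w a => (e i w a).2.2 ▸ h.det i w a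
    one := fun i a => ((ev i _ (map_src a)).and (h.one i a)).mono fun _ b => b.1.trans b.2
    tr := fun i j w a => by rw [(e i w a.1).2.2, (e j _ (tr_ball a)).2.2, h.tr i j w a]
    com := fun i w a => (e i w a).2.2 ▸ h.com i w a
    eq := fun i w a => by
      rw [db, wb_congr (ev i w a), (e i w a).2.2, (e i w a).1]
      exact h.eq i w a
    mG := fun i w a => (e i w a).2.2 ▸ h.mG i w a
    mB := fun i w a => (e i w a).1 ▸ h.mB i w a
    t1 := fun i w a X b => by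
      rw [dz, wd_congr (ev i w a), (e i w a).2.2, (e i w a).2.1]
      exact h.t1 i w a X b }

theorem triv (A : At C) (z : Dat C A.N n) : Lp A z 0 0 fun _ _ => 1 where
  sm _ := contDiffOn_const
  det _ _ _ := det_one
  one _ _ := .of_forall fun _ => rfl
  tr _ _ _ _ := by simp
  com _ _ _ := by simp
  eq _ _ _ := by simp
  mG _ _ _ := one_mem _
  mB _ _ _ := zero_mem _
  t1 _ _ _ _ _ := by simp

theorem mul (h : Lp A z B α G) (h' : Lp A z B' α' G') :
    Lp A z (B + B') (α + α') fun i w => G i w * G' i w where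
  sm i := (h.sm i).mul (h'.sm i)
  det i w a := by rw [Matrix.det_mul, h.det i w a, h'.det i w a, one_mul]
  one i a := ((h.one i a).and (h'.one i a)).mono fun _ b => by simp only [b.1, b.2, one_mul]
  tr i j w a := by rw [mul_assoc, h'.tr i j w a, ← mul_assoc, h.tr i j w a, mul_assoc]
  com i w a := by rw [mul_assoc, h'.com i w a, ← mul_assoc, h.com i w a, mul_assoc]
  eq i w a := by
    rw [db, wb_mul (h.df a i) (h'.df a i), show wb 1 (G i) w = _ from h.eq i w a,
      show wb 1 (G' i) w = _ from h'.eq i w a, mul_assoc, Ka_comm (h.mB i w a) (h'.mG i w a)]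
    simp only [Pi.add_apply, mul_add, mul_assoc]
  mG i w a := mul_mem (h.mG i w a) (h'.mG i w a)
  mB i w a := add_mem (h.mB i w a) (h'.mB i w a)
  t1 i w a X b := by
    rw [dz, wd_mul (h.df a i) (h'.df a i), Matrix.mul_inv_rev, Pi.add_apply, Pi.add_apply, add_mul,
      trace_add, ← h.t1 i w a X b, ← h'.t1 i w a X b, mul_add, add_mul, trace_add]
    congr 1
    · rw [mul_assoc, mul_assoc, mul_assoc, Ka_comm (h'.mG i w a) b, trace_mul_comm]
      simp only [mul_assoc, mul_nonsing_inv _ (h'.un a i), mul_one]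
    · rw [mul_assoc (G' i w)⁻¹, nonsing_inv_mul_cancel_left _ _ (h.un a i)]

theorem inv (h : Lp A z B α G) : Lp A z (-B) (-α) fun i w => (G i w)⁻¹ where
  sm := (Lg.frm h.toLg).sm
  det := (Lg.frm h.toLg).det
  one i a := (h.one i a).mono fun _ b => by simp only [b, inv_one]
  tr i j w a := inv_swap (h.det i w a.1) (h.det j _ (tr_ball a)) (h.tr i j w a)
  com i w a := inv_swap (h.det i w a) (h.det i w a) (h.com i w a)
  eq i w a := by
    rw [eq_neg_of_add_eq_zero_left ((Lg.frm h.toLg).eq i w a), Ka_comm (h.mB i w a) (h.mI a i)]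
    simp
  mG i w a := h.mI a i
  mB i w a := neg_mem (h.mB i w a)
  t1 i w a X b := by
    rw [dz, wd_minv (h.df a i) (h.un a i).ne_zero, nonsing_inv_nonsing_inv _ (h.un a i),
      Pi.neg_apply, Pi.neg_apply, neg_mul, trace_neg, ← h.t1 i w a X b, mul_neg, neg_mul, trace_neg,
      mul_assoc (G i w)⁻¹, mul_nonsing_inv_cancel_left _ _ (h.un a i), mul_assoc,
      Ka_comm (h.mI a i) b, ← mul_assoc, trace_mul_comm, mul_assoc]

theorem zpow (h : Lp A z B α G) (m : ℤ) : Lp A z (m • B) (m • α) fun i w => G i w ^ m := by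
  induction m using Int.induction_on with
  | zero => exact (triv A z).congr fun i w a => by simp
  | succ m ih => exact (ih.mul h).congr fun i w a =>
      ⟨by rw [add_smul, one_smul], by rw [add_smul, one_smul], zpow_add_one (h.un a i) m⟩
  | pred m ih => exact (ih.mul h.inv).congr fun i w a =>
      ⟨by rw [sub_smul, one_smul, sub_eq_add_neg], by rw [sub_smul, one_smul, sub_eq_add_neg],
        zpow_sub_one (h.un a i) _⟩

theorem siso (h : Lp A z B α G) {B1 B2 : Fm A (Mn n)}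
    (m : ∀ i, ∀ w ∈ ball (0 : ℂ) A.R, B2 i w ∈ Ka (z.a i w))
    (e : ∀ i, ∀ w ∈ ball (0 : ℂ) A.R, B1 i w = B i w + B2 i w) : SIso A z z B1 B2 G 1 :=
  ⟨rfl, fun i w a => h.df a i, h.tr, fun i w a => (h.com i w a.1).symm,
    fun i w a => (h.un a i).ne_zero, fun i a => by rw [(h.one i a).self_of_nhds, one_mul, mul_one],
    fun i w a => by
      rw [h.eq i w a, e i w a, Ka_comm (m i w a) (h.mG i w a), mul_add, add_sub_cancel_right]⟩

end Lp

theorem Lg.lp {Q γ : Fin n → Fm A ℂ} (h : Lg A z (Bq Q z.a) (P275PG.pl γ z.a)) :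
    Lp A z (Bq Q z.a) (fun i w => (P275PG.pl γ z.a i w)⁻¹ * dz (P275PG.pl γ z.a i) w)
      (P275PG.pl γ z.a) :=
  { h with
    mG := fun i w _ => pl_mem γ _ i w
    mB := fun i w _ => Bq_mem Q _ i w
    t1 := fun _ _ _ _ _ => rfl }

/-- the action of the lattice -/
def ph (G G' : Fm A (Mn n)) (m m' : ℤ) : Fm A (Mn n) := fun i w => G i w ^ m * G' i w ^ m'

theorem lp_ph (h : Lp A z B α G) (h' : Lp A z B' α' G') (m m' : ℤ) :
    Lp A z (m • B + m' • B') (m • α + m' • α') (ph G G' m m') := (h.zpow m).mul (h'.zpow m')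

theorem ph_zero (G G' : Fm A (Mn n)) (i : Fin A.N) (w : ℂ) : ph G G' 0 0 i w = 1 := by simp [ph]

theorem ph_mul (h : Lp A z B α G) (h' : Lp A z B' α' G') (a : w ∈ ball (0 : ℂ) A.R) (i : Fin A.N)
    (m m' k k' : ℤ) : ph G G' m m' i w * ph G G' k k' i w = ph G G' (m + k) (m' + k') i w := by
  rw [ph, ph, ph, zpow_add (h.un a i), zpow_add (h'.un a i), mul_assoc, ← mul_assoc (G' i w ^ m'),
    Ka_comm ((h'.zpow m').mG i w a) ((h.zpow k).mG i w a)]
  simp only [mul_assoc]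

theorem ph_neg (h : Lp A z B α G) (h' : Lp A z B' α' G') (a : w ∈ ball (0 : ℂ) A.R) (i : Fin A.N)
    (m m' : ℤ) : ph G G' m m' i w * ph G G' (-m) (-m') i w = 1 := by
  rw [ph_mul h h' a, add_neg_cancel, add_neg_cancel, ph_zero]

theorem ph_inv (h : Lp A z B α G) (h' : Lp A z B' α' G') (a : w ∈ ball (0 : ℂ) A.R) (i : Fin A.N)
    (m m' : ℤ) : (ph G G' (-m) (-m') i w)⁻¹ = ph G G' m m' i w := inv_eq_left_inv (ph_neg h h' a i m m')

/-- the density of the pairing -/
def dn (B G B' G' : Fm A (Mn n)) : Fm A ℂ := fun i w =>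
  ((G i w)⁻¹ * dz (G i) w * B' i w).trace - (B i w * ((G' i w)⁻¹ * dz (G' i) w)).trace

theorem ph_db (h : Lp A z B α G) (h' : Lp A z B' α' G') (a : w ∈ ball (0 : ℂ) A.R) (i : Fin A.N)
    (m m' : ℤ) : ph G G' m m' i w * db (ph G G' (-m) (-m') i) w = (-m) • B i w + (-m') • B' i w := by
  rw [(lp_ph h h' _ _).eq i w a, ← mul_assoc, ph_neg h h' a, one_mul]
  rfl

theorem ph_com (h : Lp A z B α G) (h' : Lp A z B' α' G') (a : w ∈ ball (0 : ℂ) A.R) (i : Fin A.N)
    (m m' k k' : ℤ) : ph G G' (-m) (-m') i w * (ph G G' k k' i w * db (ph G G' (-k) (-k') i) w) *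
      ph G G' m m' i w = ph G G' k k' i w * db (ph G G' (-k) (-k') i) w := by
  have e := ph_neg h h' a i (-m) (-m')
  rw [neg_neg, neg_neg] at e
  rw [ph_db h h' a, Ka_comm (Y := (-k) • B i w + (-k') • B' i w) ((lp_ph h h' _ _).mG i w a)
    ((lp_ph h h' (-k) (-k')).mB i w a), mul_assoc, e, mul_one]

theorem ph_num (h : Lp A z B α G) (h' : Lp A z B' α' G') (a : w ∈ ball (0 : ℂ) A.R) (i : Fin A.N)
    (m m' k k' : ℤ) :
    trace (ph G G' m m' i w * dz (ph G G' (-m) (-m') i) w *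
      (ph G G' k k' i w * db (ph G G' (-k) (-k') i) w)) -
    trace (ph G G' m m' i w * db (ph G G' (-m) (-m') i) w *
      (ph G G' k k' i w * dz (ph G G' (-k) (-k') i) w)) =
    ((m : ℂ) * k' - m' * k) * dn B G B' G' i w := by
  have t : ∀ m m' k k' : ℤ, trace (ph G G' m m' i w * dz (ph G G' (-m) (-m') i) w *
      ((-k) • B i w + (-k') • B' i w)) =
      trace (((-m) • α i w + (-m') • α' i w) * ((-k) • B i w + (-k') • B' i w)) :=
    fun m m' k k' => by
    rw [← ph_inv h h' a i m m']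
    exact (lp_ph h h' _ _).t1 i w a _ ((lp_ph h h' (-k) (-k')).mB i w a)
  rw [ph_db h h' a, ph_db h h' a, t, trace_mul_comm ((-m) • B i w + _), t, dn,
    h.t1 i w a _ (h'.mB i w a), trace_mul_comm (B i w), h'.t1 i w a _ (h.mB i w a)]
  simp only [← Int.cast_smul_eq_zsmul ℂ, add_mul, mul_add, smul_mul_assoc, mul_smul_comm,
    trace_add, trace_smul, smul_eq_mul, Int.cast_neg]
  ring

theorem tr_law {g dg G1 G2 d1 d2 X1 X2 : Mn n} {c d : ℂ} (u : IsUnit g.det) (u1 : IsUnit G1.det)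
    (u2 : IsUnit G2.det) (e : G1 * g = g * G2) (e1 : d1 * g + G1 * dg = dg * G2 + g * (d • d2))
    (e2 : X1 * g = c • (g * X2)) (e3 : G2 * X2 = X2 * G2) :
    trace (G1⁻¹ * d1 * X1) = c * d * trace (G2⁻¹ * d2 * X2) := by
  have a1 : G1⁻¹ * g = g * G2⁻¹ := by
    rw [← mul_nonsing_inv_cancel_right G2 (G1⁻¹ * g) u2, mul_assoc G1⁻¹, ← e,
      nonsing_inv_mul_cancel_left _ _ u1]
  have a2 : g⁻¹ * G1⁻¹ = G2⁻¹ * g⁻¹ := by rw [← Matrix.mul_inv_rev, e, Matrix.mul_inv_rev]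
  have a3 : G1⁻¹ * d1 * X1 = c • (G1⁻¹ * (dg * (G2 * X2 * g⁻¹)) + d • (g * (G2⁻¹ * d2 * X2) * g⁻¹) -
      dg * X2 * g⁻¹) := by
    rw [← mul_nonsing_inv_cancel_right g X1 u, e2, smul_mul_assoc, mul_smul_comm, mul_assoc g,
      mul_assoc G1⁻¹, ← mul_assoc d1, eq_sub_of_add_eq e1]
    simp only [sub_mul, add_mul, mul_sub, mul_add, mul_assoc, mul_smul_comm, smul_mul_assoc,
      nonsing_inv_mul_cancel_left _ _ u1, ← mul_assoc G1⁻¹ g, a1]
  rw [a3, trace_smul, trace_sub, trace_add, trace_smul, trace_mul_comm G1⁻¹, mul_assoc dg,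
    mul_assoc _ g⁻¹, a2, e3, mul_assoc X2, mul_nonsing_inv_cancel_left _ _ u2,
    trace_mul_cycle g, nonsing_inv_mul _ u, one_mul, mul_assoc dg]
  simp only [smul_eq_mul]
  ring

theorem Lp.law (h : Lp A z B α G) (hg : A.Cc z.g) (a : w ∈ A.O i j) :
    B i w * z.g i j w = conj (A.d i j w) • (z.g i j w * B j (A.tr i j w)) := by
  have e : (fun y => G i y * z.g i j y) =ᶠ[𝓝 w] fun y => z.g i j y * G j (A.tr i j y) :=
    eventually_of_mem (O_nhds a) fun y b => h.tr i j y b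
  have d := P275HK.hol_df (hg.an a)
  have := wb_congr e 1
  rw [wb_mul (h.df a.1 i) d, wb_mul d (g := fun y => G j (A.tr i j y))
      ((h.df (tr_ball a) j).comp w ((df_tr a).restrictScalars ℝ)),
    show wb 1 (z.g i j) w = 0 from P275HK.db_hol (hg.an a), mul_zero, zero_mul, add_zero, zero_add,
    show wb 1 (G i) w = _ from h.eq i w a.1, show wb 1 (fun y => G j (A.tr i j y)) w = _ from
      P275HK.db_comp (h.df (tr_ball a) j) (df_tr a), h.eq j _ (tr_ball a), mul_smul_comm,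
    ← mul_assoc, ← h.tr i j w a] at this
  have := congrArg ((G i w)⁻¹ * ·) this
  simpa only [mul_assoc, mul_smul_comm, nonsing_inv_mul_cancel_left _ _ (h.un a.1 i), At.d]
    using this

theorem Lp.law1 (h : Lp A z B α G) (h' : Lp A z B' α' G') (hg : A.Cc z.g) (a : w ∈ A.O i j) :
    trace ((G i w)⁻¹ * dz (G i) w * B' i w) = conj (A.d i j w) * A.d i j w *
      trace ((G j (A.tr i j w))⁻¹ * dz (G j) (A.tr i j w) * B' j (A.tr i j w)) := by
  have e : (fun y => G i y * z.g i j y) =ᶠ[𝓝 w] fun y => z.g i j y * G j (A.tr i j y) :=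
    eventually_of_mem (O_nhds a) fun y b => h.tr i j y b
  have d := P275HK.hol_df (hg.an a)
  have := wd_congr e 1
  rw [wd_mul (h.df a.1 i) d, wd_mul d (g := fun y => G j (A.tr i j y))
      ((h.df (tr_ball a) j).comp w ((df_tr a).restrictScalars ℝ)),
    show wd 1 (fun y => G j (A.tr i j y)) w = _ from
      P275HK.dz_comp (h.df (tr_ball a) j) (df_tr a)] at this
  exact tr_law (hg.det.ne a).isUnit (h.un a.1 i) (h.un (tr_ball a) j) (h.tr i j w a) this
    (h'.law hg a) (Ka_comm (h.mG j _ (tr_ball a)) (h'.mB j _ (tr_ball a)))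

theorem dn_dn (h : Lp A z B α G) (h' : Lp A z B' α' G') (hg : A.Cc z.g) : A.Dn (dn B G B' G') :=
  fun i j w a => by
  rw [dn, dn, trace_mul_comm (B i w), trace_mul_comm (B j _), h.law1 h' hg a, h'.law1 h hg a,
    ← mul_sub, Complex.real_smul, Complex.normSq_eq_conj_mul_self]

theorem Lp.smB (h : Lp A z B α G) : A.Sm ∞ B := fun i w a =>
  ((P275HK.cd_mul (h.inv.sm.at a i) ((h.sm.db (by simp)).at a i)).congr_of_eventuallyEq
    (eventually_of_mem (isOpen_ball.mem_nhds a) fun y b => by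
      beta_reduce
      rw [h.eq i y b, nonsing_inv_mul_cancel_left _ _ (h.un b i)])).contDiffWithinAt

theorem dn_sm (h : Lp A z B α G) (h' : Lp A z B' α' G') : A.Sm ∞ (dn B G B' G') := fun i w a =>
  ((P275HK.cd_trace (P275HK.cd_mul (P275HK.cd_mul (h.inv.sm.at a i) ((h.sm.dz (by simp)).at a i))
    (h'.smB.at a i))).sub (P275HK.cd_trace (P275HK.cd_mul (h.smB.at a i)
      (P275HK.cd_mul (h'.inv.sm.at a i) ((h'.sm.dz (by simp)).at a i))))).contDiffWithinAt

end Vale.Agent.P275NM
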