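import Vale.Agent.P275NM.Defs
import Vale.Agent.P275MK.Glue

/-!
# P275, block NUM: the data on the torus exist
-/

set_option linter.all false

open scoped Manifold ContDiff Topology Matrix Real ComplexOrder
open Filter Set
open Vale.Agent.P272.K Vale.Agent.P299.IX Vale.Agent.P299.IX.Fock Vale.Agent.P281Z.Hg Vale.Agent.P281Z.Hg.G1H
  Vale.Agent.P281Z.Hg.G2H Vale.Agent.P281Z.Hg.Pb1H
  Vale.Agent.P275MC Vale.Agent.P275KU Vale.Agent.P275OM Vale.Agent.P275OM.Fr P275CW
open Vale.Agent.P275MK (Gl c1)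

noncomputable section

namespace Vale.Agent.P275NM

section gen

variable {d N : ℕ} {M : Type} [TopologicalSpace M] [ChartedSpace (Cm d) M] [T2Space M]
  [IsManifold 𝓘(ℂ, Cm d) ω M] [CompactSpace M] {U : Fin N → Set M} {P w : Fin N → M → ℂ}

theorem ex_form (op : ∀ a, IsOpen (U a)) (hP : ∀ a, SmC d (P a))
    (sup : ∀ a, tsupport (P a) ⊆ U a) (sq : ∀ p, ∑ a, P a p = 1)
    (hw : ∀ a, ∀ p ∈ U a, Sa d p (w a))
    (lc : ∀ a b p, p ∈ U a → p ∈ U b → ∀ᶠ y in 𝓝 p, w b y = w a y + (w b p - w a p)) :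
    ∃ θ σ : Fr d M, sf θ ∈ Dg d M 1 ∧ sf σ ∈ Dg d M 0 ∧
      (∀ a p, p ∈ U a → gq p θ = (dgG d p).d (gm d p (w a))) ∧
      ∀ p a (m : Fin N → ℂ), p ∈ U a → (∀ b, p ∈ U b → m b = w b p - w a p) →
        gq p (dF σ - θ) = ∑ b, m b • (dgG d p).d (gm d p (P b)) := by
  choose χ h1 _ h3 _ _ h6 using fun b =>
    ex_cut (d := d) (op b) (isClosed_tsupport (P b)).isCompact (sup b)
  have k1 : ∀ b, SmC d fun y => χ b y * w b y := fun b => Sa.smC fun x =>
    (Sa.of (SmC.of_real (h1 b)) x).cut fun hx =>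
      hw b x (h3 b (tsupport_comp_subset Complex.ofReal_zero (χ b) hx))
  have k2 : SmC d fun y => ∑ b, P b y * w b y := Sa.smC fun x => Sa.sum _ fun b _ =>
    (Sa.of (hP b) x).cut fun hx => hw b x (sup b hx)
  have k3 : ∀ a p, p ∈ U a → gq p (∑ b, of (fn (hP b)) * dF (of (fn (k1 b)))) =
      (dgG d p).d (gm d p (w a)) := fun a p ha => by
    rw [← one_mul ((dgG d p).d _), ← gm_one, gm_congr (.of_forall fun y => (sq y).symm),
      gm_sum _ fun b _ => Sa.of (hP b) p, Finset.sum_mul, map_sum]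
    refine Finset.sum_congr rfl fun b _ => ?_
    rw [map_mul, ← d_gq, ← gm_fn, ← gm_fn]
    by_cases hb : p ∈ tsupport (P b)
    · rw [gm_congr (f := fun y => χ b y * w b y) (g := fun y => w a y + (w b p - w a p)) (by
        filter_upwards [h6 b p hb, lc a b p ha (sup b hb)] with y e1 e2
        rw [e1, e2, Complex.ofReal_one, one_mul]), gm_add (hw a p ha) (Sa.const _), map_add,
        d_gm_const, add_zero]
    · rw [gm_off hb, zero_mul, zero_mul]
  refine ⟨_, of (fn k2), ?_, fn_Dg k2, k3, fun p a m ha hm => ?_⟩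
  · rw [map_sum]
    exact sum_mem fun b _ => fn_wd_Dg (hP b) (dd_fn_Dg (k1 b))
  · rw [map_sub, k3 a p ha, ← d_gq, ← gm_fn, gm_congr (g := fun y => w a y + ∑ b, m b * P b y) ?_,
      gm_add (hw a p ha) (Sa.sum _ fun b _ => (Sa.const _).mul (Sa.of (hP b) p)), map_add,
      add_sub_cancel_left, gm_sum _ fun b _ => (Sa.const _).mul (Sa.of (hP b) p), map_sum]
    · exact Finset.sum_congr rfl fun b _ => by rw [gm_smul _ (Sa.of (hP b) p), map_smul]
    have k4 : ∀ b, ∀ᶠ y in 𝓝 p, P b y * w b y = P b y * w a y + m b * P b y := fun b => by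
      by_cases hb : p ∈ tsupport (P b)
      · filter_upwards [lc a b p ha (sup b hb)] with y e
        rw [e, hm b (sup b hb)]
        ring
      · filter_upwards [notMem_tsupport_iff_eventuallyEq.1 hb] with y e
        simp only [e, Pi.zero_apply, zero_mul, mul_zero, add_zero]
    filter_upwards [eventually_all.2 k4] with y e
    simp only [e, Finset.sum_add_distrib, ← Finset.sum_mul, sq, one_mul]

theorem ex_sq {ι : Type} {V : ι → Set M} (op : ∀ i, IsOpen (V i)) (cov : ∀ x, ∃ i, x ∈ V i) :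
    ∃ (N : ℕ) (k : Fin N → ι) (ρ : Fin N → M → ℂ), (∀ a, SmC d (ρ a)) ∧
      (∀ a, tsupport (ρ a) ⊆ V (k a)) ∧ ∀ p, ∑ a, ρ a p * ρ a p = 1 := by
  choose i hi using cov
  choose χ h1 _ h3 _ _ h6 using fun x => ex_bump (d := d) ((op _).mem_nhds (hi x))
  obtain ⟨t, ht⟩ := CompactSpace.elim_nhds_subcover (fun x => {y | χ x y = 1}) h6
  let k : Fin t.card → M := fun a => t.equivFin.symm a
  have h0 : ∀ p, 0 < ∑ a, χ (k a) p * χ (k a) p := fun p => by
    obtain ⟨x, hx, h⟩ := mem_iUnion₂.1 (ht.symm.subset (mem_univ p))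
    refine Finset.sum_pos' (fun a _ => mul_self_nonneg _)
      ⟨t.equivFin ⟨x, hx⟩, Finset.mem_univ _, ?_⟩
    simp only [k, Equiv.symm_apply_apply, show χ x p = 1 from h, mul_one, one_pos]
  have h2 : SmC d fun p => ((∑ a, χ (k a) p * χ (k a) p : ℝ) : ℂ) := by
    simpa only [Complex.ofReal_sum, Complex.ofReal_mul] using
      SmC.sum Finset.univ fun a => (SmC.of_real (h1 (k a))).mul (SmC.of_real (h1 (k a)))
  refine ⟨_, fun a => i (k a), fun a p => χ (k a) p * ((√(∑ a, χ (k a) p * χ (k a) p))⁻¹ : ℝ),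
    fun a => (SmC.of_real (h1 _)).mul (h2.comp (φ := fun z => ((√z.re)⁻¹ : ℝ)) fun p =>
      Complex.ofRealCLM.contDiff.contDiffAt.comp _ ((Complex.reCLM.contDiff.contDiffAt.sqrt
        (h0 p).ne').inv (Real.sqrt_pos.2 (h0 p)).ne')), fun a => ?_, fun p => ?_⟩
  · exact tsupport_mul_subset_left.trans
      ((tsupport_comp_subset Complex.ofReal_zero (χ _)).trans (h3 _))
  · simp only [← Complex.ofReal_mul, ← Complex.ofReal_sum]
    simp only [mul_mul_mul_comm _ (√_)⁻¹, ← Finset.sum_mul, ← mul_inv,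
      Real.mul_self_sqrt (h0 p).le, mul_inv_cancel₀ (h0 p).ne', Complex.ofReal_one]

theorem itc_two {θ σ θ' σ' : Fr d M} (h1 : sf θ ∈ Dg d M 1) (h2 : sf σ ∈ Dg d M 0)
    (k : dF θ = 0) (k' : dF θ' = 0) :
    itc d M (sf ((dF σ - θ) * (dF σ' - θ'))) = itc d M (sf (θ * θ')) := by
  have e1 := (dgF d M).lb (a := σ) (dF σ' - θ') h2
  have e2 := (dgF d M).lb (a := θ) σ' h1
  change dF _ = dF _ * _ + _ • (_ * dF _) at e1 e2
  rw [map_sub, k', show dF (dF σ') = 0 from dd_dd _, sub_zero, mul_zero, smul_zero, add_zero] at e1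
  rw [k, zero_mul, zero_add, Int.negOnePow_one, Units.neg_smul, one_smul] at e2
  have h : ∀ u : Fr d M, itc d M (sf (dF u)) = 0 := fun u => itc_dd (by rw [Ac_univ]; trivial)
  rw [sub_mul, ← e1, mul_sub θ, ← neg_neg (θ * dF σ'), ← e2]
  simp only [map_sub, map_neg, h, neg_zero, zero_sub, neg_neg]

end gen

theorem top2 (v w : Fin (1 + 1) → ℂ) :
    (epsV v *ᵥ (epsV w *ᵥ ev ∅)) Finset.univ = v 0 * w 1 - v 1 * w 0 := by
  have h1 : ∀ l : Fin (1 + 1), eps l *ᵥ ev ∅ = ev {l} := fun l => eps_ev_min (by simp)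
  have h2 : ∀ l : Fin (1 + 1), eps l *ᵥ ev {l} = 0 := fun l => eps_ev_of_mem (by simp)
  have h3 : eps (0 : Fin (1 + 1)) *ᵥ ev {1} = ev Finset.univ := eps_ev_min (by simp)
  have h4 : eps (1 : Fin (1 + 1)) *ᵥ ev {0} = -ev Finset.univ := by
    rw [← h3, ← h1, ← h1, ← epsV_single, ← epsV_single, epsV_epsV_mulVec]
  have h5 : ∀ v : Fin (1 + 1) → ℂ, epsV v = v 0 • eps 0 + v 1 • eps 1 := fun v =>
    Fin.sum_univ_two _
  simp only [h5, Matrix.add_mulVec, Matrix.smul_mulVec, Matrix.mulVec_add,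
    Matrix.mulVec_smul, h1, h2, h3, h4]
  simp [ev]
  ring

/-- the universal covering -/
def E (z : ℂ) : T2 := (Circle.exp (2 * π * z.re), Circle.exp (2 * π * z.im))

theorem lhE : IsLocalHomeomorph E := by
  have h1 : IsLocalHomeomorph fun x : ℝ => Circle.exp (2 * π * x) :=
    isLocalHomeomorph_circleExp.comp
      (Homeomorph.mulLeft₀ (2 * π) Real.two_pi_pos.ne').isLocalHomeomorph
  have h2 : IsLocalHomeomorph (Prod.map (fun x : ℝ => Circle.exp (2 * π * x))
      fun x : ℝ => Circle.exp (2 * π * x)) := fun x => by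
    obtain ⟨e, k1, k2⟩ := h1 x.1
    obtain ⟨e', k3, k4⟩ := h1 x.2
    refine ⟨e.prod e', ⟨k1, k3⟩, funext fun y => Prod.ext (congrFun k2 _) (congrFun k4 _)⟩
  exact h2.comp Complex.equivRealProdCLM.toHomeomorph.isLocalHomeomorph

theorem E_add (z w : ℂ) : E (z + w) = E z * E w := by
  simp only [E, Complex.add_re, Complex.add_im, mul_add, Circle.exp_add, Prod.mk_mul_mk]

theorem E_surj (p : T2) : ∃ z, E z = p :=
  ⟨⟨Complex.arg p.1 / (2 * π), Complex.arg p.2 / (2 * π)⟩, by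
    simp only [E, mul_div_cancel₀ _ Real.two_pi_pos.ne', Circle.exp_arg]⟩

theorem loc_tr {X : Type} [TopologicalSpace X] {f g : X → ℂ} {x : X} (hf : ContinuousAt f x)
    (hg : ContinuousAt g x) (h : ∀ᶠ y in 𝓝 x, E (f y) = E (g y)) :
    ∀ᶠ y in 𝓝 x, f y = g y + (f x - g x) := by
  obtain ⟨V, h1, h2, h3⟩ := lhE.isLocallyInjective (f x)
  have h4 : E (f x - g x) = 1 := mul_left_cancel (a := E (g x)) (by
    rw [← E_add, add_sub_cancel, mul_one, h.self_of_nhds])
  filter_upwards [h, hf.eventually (h1.mem_nhds h2), (hg.add continuousAt_const).eventually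
    (h1.mem_nhds (show g x + (f x - g x) ∈ V by rwa [add_sub_cancel]))] with y k1 k2 k3
  exact h3 k2 k3 (by rw [E_add, h4, mul_one, k1])

/-- the charts -/
def ch (z : ℂ) : OpenPartialHomeomorph T2 ℂ := (lhE z).choose.symm

theorem ch_symm (z w : ℂ) : (ch z).symm w = E w := (congrFun (lhE z).choose_spec.2 w).symm

theorem E_ch {z : ℂ} {p : T2} (h : p ∈ (ch z).source) : E (ch z p) = p :=
  (ch_symm z _).symm.trans ((ch z).left_inv h)

theorem ch_cov (p : T2) : ∃ z, p ∈ (ch z).source :=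
  let ⟨z, h⟩ := E_surj p
  ⟨z, h ▸ ch_symm z z ▸ (ch z).map_target (lhE z).choose_spec.1⟩

theorem ch_E {z w : ℂ} (h : E w ∈ (ch z).source) :
    ∀ᶠ v in 𝓝 w, ch z (E v) = v + (ch z (E w) - w) :=
  have h1 := lhE.continuous.continuousAt (x := w)
  loc_tr (((ch z).continuousAt h).comp h1) continuousAt_id
    ((h1.eventually ((ch z).open_source.mem_nhds h)).mono fun _ => E_ch)

/-- the complex structure -/
abbrev gl : Gl 1 T2 (Cm 1) := .ofC ch ch_cov fun i j x hi hj => by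
  simp only [ch_symm]
  exact (analyticAt_id.add analyticAt_const).congr
    (EventuallyEq.symm (ch_E (z := j) ((E_ch hi).symm ▸ hj)))

theorem dr_lin {g : Cm 1 → ℂ} {z : Cm 1} (L : Cm 1 →L[ℝ] ℂ) (c : ℂ)
    (h : g =ᶠ[𝓝 z] fun v => L v + c) (k : Fin (1 + 1)) : dr k g z = dr k L 0 := by
  obtain ⟨a, b, v, w, h1, -⟩ := Po1.rep k
  rw [h1, h1, h.fderiv_eq, fderiv_add_const, L.fderiv, L.fderiv]

/-- **TOR** -/
theorem tor : TOR := by
  letI := gl.cs
  haveI := gl.mf
  obtain ⟨N, k, ρ, r1, r2, r3⟩ := ex_sq (d := 1) (fun z => (ch z).open_source) ch_cov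
  have c0 : ∀ (e : Chart 1 T2) p, At e p → E (e p 0) = p ∧ ∀ v, e.symm v = E (v 0) := by
    rintro _ p ⟨⟨i, e, he, rfl⟩, h⟩
    obtain rfl : e = .refl _ := he
    exact ⟨E_ch h.1.1, fun v => ch_symm i _⟩
  have c1 : ∀ (L : ℂ →L[ℝ] ℝ) z p, p ∈ (ch z).source → ∀ e : Chart 1 T2, At e p →
      (fun v => (L (ch z (e.symm v)) : ℂ)) =ᶠ[𝓝 (e p)] fun v => (Complex.ofRealCLM ∘L L ∘L
        ContinuousLinearMap.proj 0) v + L (ch z (E (e p 0)) - e p 0) := fun L z p h e he => by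
    filter_upwards [(continuous_apply 0).continuousAt.eventually
      (ch_E (z := z) ((c0 e p he).1.symm ▸ h))] with v hv
    rw [(c0 e p he).2, hv, map_add, Complex.ofReal_add]
    rfl
  have c2 : ∀ (L : ℂ →L[ℝ] ℝ) z p, p ∈ (ch z).source → Sa 1 p fun q => (L (ch z q) : ℂ) :=
    fun L z p h => sa_of (((ch z).open_source.eventually_mem h).mono fun y hy e he =>
      ((ContinuousLinearMap.contDiff _).contDiffAt.add contDiffAt_const).congr_of_eventuallyEq
        (c1 L z y hy e he))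
  have c3 := fun L : ℂ →L[ℝ] ℝ => ex_form (d := 1) (fun a => (ch (k a)).open_source)
    (fun a => (r1 a).mul (r1 a)) (fun a => tsupport_mul_subset_left.trans (r2 a)) r3
    (fun a => c2 L (k a)) fun a b p ha hb => by
      filter_upwards [loc_tr ((ch (k b)).continuousAt hb) ((ch (k a)).continuousAt ha) (by
        filter_upwards [(ch _).open_source.mem_nhds ha, (ch _).open_source.mem_nhds hb] with y h h'
        rw [E_ch h, E_ch h'])] with y hy
      rw [hy, map_add, map_sub, Complex.ofReal_add, Complex.ofReal_sub]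
  obtain ⟨θ, σ, a1, a2, a3, a4⟩ := c3 Complex.reCLM
  obtain ⟨θ', σ', b1, b2, b3, b4⟩ := c3 Complex.imCLM
  have c4 : ∀ p, ∃ a, p ∈ (ch (k a)).source := fun p => by_contra fun h => one_ne_zero
    ((r3 p).symm.trans (Finset.sum_eq_zero fun a _ => by
      rw [image_eq_zero_of_notMem_tsupport fun h1 => h ⟨a, r2 a h1⟩, mul_zero]))
  have c5 : dF θ = 0 ∧ dF θ' = 0 := ⟨gq_ext fun p => let ⟨a, h⟩ := c4 p; by
    rw [← d_gq, a3 a p h, DG.dd, map_zero], gq_ext fun p => let ⟨a, h⟩ := c4 p; by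
    rw [← d_gq, b3 a p h, DG.dd, map_zero]⟩
  have c6 : ∀ (e : Chart 1 T2) p, At e p → vl (sf (θ * θ')) e (e p) Finset.univ =
      Complex.I / 2 := fun e p he => by
    obtain ⟨a, h⟩ := c4 p
    obtain ⟨f, hf⟩ := c2 Complex.reCLM _ p h
    obtain ⟨g, hg⟩ := c2 Complex.imCLM _ p h
    have h1 : gq p (θ * θ') = gq p (dF (fnH f) * dF (fnH g)) := by
      rw [map_mul, map_mul, a3 a p h, b3 a p h, gm_eq f hf, gm_eq g hg, d_gq, d_gq]
    have h2 := P275AR.Nb_ZP (gq_eq.1 h1) e he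
    rw [vl_sub, sub_eq_zero] at h2
    rw [h2, sf_mul, wd_vl _ _ he, sf_dF, sf_dF, sf_fnH, sf_fnH]
    erw [dd_fn_vl f.2 he, dd_fn_vl g.2 he]
    rw [P275OM.wg_epsV, top2]
    simp only [dr_lin _ _ (EventuallyEq.trans (ev_src he hf) (c1 _ _ p h e he)),
      dr_lin _ _ (EventuallyEq.trans (ev_src he hg) (c1 _ _ p h e he))]
    change dz 0 _ _ * dzb 0 _ _ - dzb 0 _ _ * dz 0 _ _ = _
    simp only [dz, dzb, ContinuousLinearMap.fderiv]
    simp
    ring
  refine ⟨{
    N := N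
    U := fun a => (ch (k a)).source
    op := fun a => (ch _).open_source
    s := fun a p => (ch (k a) p).re
    t := fun a p => (ch (k a) p).im
    cts := fun a => Complex.continuous_re.comp_continuousOn (ch _).continuousOn
    ctt := fun a => Complex.continuous_im.comp_continuousOn (ch _).continuousOn
    hs := fun a p h => congrArg Prod.fst (E_ch h)
    ht := fun a p h => congrArg Prod.snd (E_ch h)
    ρ := ρ
    sm := r1
    sup := fun a p h => notMem_tsupport_iff_eventuallyEq.1 fun h1 => h (r2 a h1)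
    sq := r3
    u := sf ((dF σ - θ) * (dF σ' - θ'))
    dg := wd_Dg (sub_mem (dd_Dg a2) a1) (sub_mem (dd_Dg b2) b1)
    ne := fun h => ?_
    loc := fun p a m m' h hm => ?_ }⟩
  · rw [itc_two a1 a2 c5.1 c5.2] at h
    have h1 : ∀ (e : Chart 1 T2) p, At e p →
        vl ((-2 * Complex.I) • sf (θ * θ')) e (e p) Finset.univ = 1 := fun e p he => by
      rw [vl_smul, Pi.smul_apply, c6 e p he, smul_eq_mul]
      linear_combination (-1 : ℂ) * Complex.I_mul_I
    have h2 := itc_pos (u := (-2 * Complex.I) • sf (θ * θ')) (by rw [Ac_univ]; trivial)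
      (fun e p he => by rw [h1 e p he]; exact zero_le_one) (ca 1) (by
        rw [h1 _ _ (ca 1)]; exact one_ne_zero)
    rw [map_smul, h, smul_zero] at h2
    exact lt_irrefl _ h2
  · refine (map_mul _ _ _).trans (congrArg₂ (· * ·) (a4 p a _ h fun b hb => ?_)
      (b4 p a _ h fun b hb => ?_))
    · exact_mod_cast congrArg ((↑) : ℝ → ℂ) (hm b hb).1
    · exact_mod_cast congrArg ((↑) : ℝ → ℂ) (hm b hb).2

end Vale.Agent.P275NM
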