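import Vale.Agent.P275NM.Cw
import Vale.Agent.P275NM.Tor
import Vale.Agent.P275CW.Cm2
import Vale.Agent.P275OI.Top

/-!
# P275, block NUM: the universal class pairs with the tori of twists by the Chern-Weil numbers
-/

set_option linter.all false
set_option backward.isDefEq.respectTransparency false

open scoped Manifold ContDiff Topology Matrix Real
open Filter Set Metric
open Vale.Agent.P272.K Vale.Agent.P272.K.Prod Vale.Agent.P281Z.Hg Vale.Agent.P275MC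
  Vale.Agent.P275KU Vale.Agent.P275OM Vale.Agent.P275Z Vale.Agent.P275PC P275CC P275CW
open Vale.Agent.P275GC.At Vale.Agent.P275OI Vale.Agent.P275CW
open Vale.Agent.P275NA (Fm Mn Cy)
open Vale.Agent.P275MO (Mod Ty)
open Vale.Agent.P275MM (Sys Hy)
open Vale.Agent.P275PG (NumP pairing Bq)
open P275S (Hd)

noncomputable section

namespace Vale.Agent.P275NM

variable {C : Type} [TopologicalSpace C] {A : P275GC.At C}

theorem ex_dn {r : ℝ} {h1 : 1 < r} {h2 : r ≤ A.R} {u : Fm A ℂ} (hs : (A.res r h1 h2).Sm ∞ u)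
    (hu : (A.res r h1 h2).Dn u) :
    ∃ v : Fm A ℂ, A.Sm ∞ v ∧ A.Dn v ∧ ∀ i, ∀ w ∈ ball (0 : ℂ) r, v i w = u i w := by
  have hT : ∀ i j k, ∀ z ∈ A.O i j, z ∈ A.O i k → ∀ y : ℂ, Complex.normSq (A.d i k z) • y =
      Complex.normSq (A.d i j z) • Complex.normSq (A.d j k (A.tr i j z)) • y :=
    fun i j k z a b y => by rw [A.cc_d.mul i j k z a b, map_mul, mul_smul]
  refine ⟨A.xt (fun i j z y => Complex.normSq (A.d i j z) • y) u, fun i w a => ?_,
    fun i j w a => xt_tr hT hu a, fun i w a => xt_self hu a⟩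
  obtain ⟨j, b, c⟩ := ex_unit a i
  have m : A.tr i j w ∈ ball (0 : ℂ) r := mem_ball_zero_iff.2 (c.trans h1)
  exact (((P275GC.cd_nsq (P275GC.cd_an (an_d b))).smul ((hs.at m j).comp w
    (P275GC.cd_an (an_tr b)))).congr_of_eventuallyEq (xt_ev hT hu b m)).contDiffWithinAt

variable [ChartedSpace (Cm 1) C] [IsManifold 𝓘(ℂ, Cm 1) ω C] [Nc C] [CompactSpace C]
  [PreconnectedSpace C] {κ : HH C}

theorem itK_ne (hκ : κ ∈ Hd ℂ (TopCat.of C) 2) (h0 : κ ≠ 0) : itK 1 C κ ≠ 0 :=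
  fun e => h0 (itK_inj (d := 1) hκ e)

/-- the coefficient of the fundamental class is the normalised integral -/
theorem lam_mf (hκ : κ ∈ Hd ℂ (TopCat.of C) 2) (h0 : κ ≠ 0) :
    Lam κ ((itK 1 C κ)⁻¹ • itK 1 C) where
  mem := hκ
  cpt := inferInstance
  fd := P275S.fd_of_chart (X := TopCat.of C) (Cm 1) (N := 2) fun m hm =>
    eq_bot_iff.2 fun a ha => eq_zero_of_big (d := 1) ha (.inr hm)
  one := inv_mul_cancel₀ (itK_ne hκ h0)
  off m hm c hc := by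
    obtain ⟨w, hw, h1, rfl⟩ := cl_surj (d := 1) hc
    rw [LinearMap.smul_apply, itK_cl hw, ← itc_pj (by rw [Ac_univ]; trivial),
      pj_ne hw (j := (1 + 1 : ℕ)) hm.symm, map_zero, smul_zero]
  top m hm c hc := by
    rcases hm.eq_or_lt with rfl | e
    · refine sub_eq_zero.1 (itK_inj (d := 1) (sub_mem hc (Submodule.smul_mem _ _ hκ)) ?_)
      rw [map_sub, map_smul, LinearMap.smul_apply, smul_eq_mul, smul_eq_mul, mul_right_comm,
        inv_mul_cancel₀ (itK_ne hκ h0), one_mul, sub_self]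
    · rw [eq_zero_of_big (d := 1) hc (.inr e), map_zero, zero_smul]

attribute [local instance] prodCS isManifold_prod

theorem num_mf (hA : IsA A) {n : ℕ} {l : Cy A ℂ} [hy : Hy A l n] {τ : Ty n}
    (Sy : Sys A l τ (Mod A l τ)) (hf : Sy.f = id) (hκ : κ ∈ Hd ℂ (TopCat.of C) 2) (h0 : κ ≠ 0) :
    ∃ κ', κ' ≠ 0 ∧ NumP ((lam_mf hκ h0).cE Sy) κ' := by
  obtain ⟨D⟩ := tor
  letI := D.cs
  haveI := D.mf
  haveI := nc_mf 1 T2
  have du : (dgF 1 T2).d (Fr.of D.u) = 0 := top_Zf (d := 1) D.dg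
  refine ⟨(-4 * n * (itK 1 C κ)⁻¹) • cF (Fr.of D.u), smul_ne_zero (mul_ne_zero (mul_ne_zero
    (by norm_num) (Nat.cast_ne_zero.2 hy.pos.ne')) (inv_ne_zero (itK_ne hκ h0)))
    ((cF_cl (i := 2) D.dg du).trans_ne (cl_ne_zero D.dg du D.ne)),
    fun x tw tt Q Q' γ γ' y z r h1 h2 e g b b' ψ hψ => ?_⟩
  have hs : Lg1 D.U D.s Prod.fst := ⟨D.op, D.cts, D.hs⟩
  have ht : Lg1 D.U D.t Prod.snd := ⟨D.op, D.ctt, D.ht⟩
  have cov : ∀ p, ∃ a, p ∈ D.U a := fun p => by_contra fun a => zero_ne_one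
    ((Finset.sum_eq_zero fun k _ => by
      rw [(D.sup k p fun m => a ⟨k, m⟩).self_of_nhds, zero_mul]).symm.trans (D.sq p))
  have h := Lg.lp b
  have h' := Lg.lp b'
  obtain ⟨v, v1, v2, v3⟩ := ex_dn (dn_sm h h') (dn_dn h h' g.cc)
  have dw : (dgF 1 C).d (Fr.of (om hA v1 v2)) = 0 := top_Zf (d := 1) (om_Dg hA v1 v2)
  have k1 := p2_tvb (A := A.res r h1 h2) P275S.mv0_lhp (fun i c m => (sa_e hA m.1 :)) cov hs ht
    g.cc h h' D.sm D.sup D.sq (u := Fr.of D.u)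
    (fun p a m => D.loc p a _ _ m fun b m' => ⟨hs.mu_eq m m', ht.mu_eq m m'⟩)
    (w := Fr.of (om hA v1 v2)) fun i c m => (gq_om hA v1 v2 m.1).trans (congrArg (· * _) (gm_congr
      (eventually_of_mem (((A.res r h1 h2).e i).open_source.mem_nhds m) fun _ a => v3 i _ a.2)))
  have d1 : (dgF (1 + 1) (T2 × C)).d (pbH smo_fst (Fr.of D.u)) = 0 := by
    rw [← (hom_pbH smo_fst).d, du, map_zero]
  have d2 : (dgF (1 + 1) (T2 × C)).d (pbH smo_snd (Fr.of (om hA v1 v2))) = 0 := by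
    rw [← (hom_pbH smo_snd).d, dw, map_zero]
  have d3 : (dgF (1 + 1) (T2 × C)).d (pbH smo_fst (Fr.of D.u) *
    pbH smo_snd (Fr.of (om hA v1 v2))) = 0 := wd_mem_Zf ⟨_, d1⟩ ⟨_, d2⟩
  rw [cF_smul _ d3, cF_mul d1 d2, cF_pb _ du, cF_pb _ dw] at k1
  have k2 : th.p1 (tvb cov hs ht g.cc h h') ^ 2 = 0 := by
    have m := cq_mem (dl g.cc)
    rw [Th.p1_det, Th.c_iso (det_tvb cov hs ht g.cc h h'), Th.c_pb, ← map_pow, sq,
      show th.c (dl g.cc) * th.c (dl g.cc) = 0 from Subtype.ext (eq_zero_of_big (d := 1)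
        (P275S.mul_mem_Hd (l := 4) rfl m m) (.inr (by norm_num))), map_zero]
  have k3 := (Th.p2_li (τ := th) (li (Sy.pb ψ) tt e g cov hs ht
    (fun a p m => (congrFun hf _).trans ((congrArg ψ (Prod.ext (D.hs a p m).symm
      (D.ht a p m).symm)).trans (hψ _ _))) h h')).trans (Th.p2_end _)
  rw [k2, mul_zero, sub_zero, two_mul, ← add_nsmul, Fintype.card_fin,
    ← Nat.cast_smul_eq_nsmul ℂ] at k3
  have k4 := (lam_mf hκ h0).int_mul (cF (Fr.of D.u)) (cF (Fr.of (om hA v1 v2)))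
  have k5 : itK 1 C (cF (Fr.of (om hA v1 v2))) = pairing A (Bq Q.1 z.1.a)
      (P275PG.pl γ z.1.a) (Bq Q'.1 z.1.a) (P275PG.pl γ' z.1.a) :=
    (congrArg _ (cF_eq dw)).trans ((itK_clT _).trans ((itc_om hA v1 v2).trans
      (int_congr fun i w a => v3 i w (mem_ball_zero_iff.2 (a.trans h1)))))
  refine ((lam_mf hκ h0).cE_pb Sy ψ).symm.trans ((congrArg ((lam_mf hκ h0).int T2)
    ((congrArg Subtype.val k3).trans (congrArg (((n + n : ℕ) : ℂ) • ·) k1))).trans ?_)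
  refine (map_smul _ _ _).trans ((congrArg _ ((map_smul _ _ _).trans (congrArg _ k4))).trans ?_)
  rw [LinearMap.smul_apply, k5, smul_smul, smul_smul, smul_smul, smul_eq_mul]
  congr 1
  push_cast
  ring

/-- **NUM** -/
theorem num (h : MV0 ∧ LHP) : NUM (IsU h) := by
  rintro S T e ⟨hy, nc, Sy, κ, hf, hκ, h0, hE⟩
  letI := P275MK.csA T.A
  haveI := (isA T.A).mf
  exact (lam_mf hκ h0).isE_iff.1 hE ▸ num_mf (isA T.A) Sy hf hκ h0

end Vale.Agent.P275NM
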