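import Vale.Agent.P275NM.Crv
import Vale.Agent.P275CM.Hkf

/-!
# P275, block OP: the first Chern class and the degree
-/

set_option linter.all false
set_option backward.isDefEq.respectTransparency false

open scoped Manifold ContDiff Topology ComplexConjugate
open Filter Set Metric Complex
open Vale.Agent.P272.K Vale.Agent.P281Z.Hg Vale.Agent.P275MC Vale.Agent.P275OM Vale.Agent.P275Z
  P275CC P275CW P275CM
open Vale.Agent.P275GC Vale.Agent.P275GC.At Vale.Agent.P275CW
open Vale.Agent.P275NA (Fm Cy)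
open Vale.Agent.P281Z.Hm (wd_log wd_cmul wd_conj wb_hol df_conj wd_add wd_congr)

noncomputable section

namespace Vale.Agent.P275NM

theorem dz_log_nsq {a : ℂ → ℂ} {z : ℂ} (h1 : AnalyticAt ℂ a z) (h2 : a z ≠ 0) :
    a z * P275NA.dz (fun x => ((Real.log (normSq (a x)) : ℝ) : ℂ)) z = P275NA.dz a z := by
  have h3 := h1.differentiableAt.restrictScalars ℝ
  rw [P275NA.dz, wd_log ((cd_nsq (k := 1) (cd_an h1)).differentiableAt one_ne_zero)
    (normSq_pos.2 h2).ne']
  simp only [← mul_conj]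
  rw [wd_cmul h3 (df_conj h3), wd_conj h3, wb_hol h1.differentiableAt, map_zero, mul_zero, add_zero]
  have : conj (a z) ≠ 0 := by simpa using h2
  field_simp

variable {C : Type} [TopologicalSpace C] {A : P275GC.At C} {l : Cy A ℂ} {h : Fm A ℝ}

/-- the connection form of a metric -/
def cn (h : Fm A ℝ) (i : Fin A.N) : ℂ → ℂ := P275NA.dz fun w => (Real.log (h i w) : ℂ)

theorem cn_law (hl : A.Cc l) (H : A.Mt ∞ l h) {i j : Fin A.N} {z : ℂ} (a : z ∈ A.O i j) :
    l i j z * (cn h j (A.tr i j z) * P275NA.dz (A.tr i j) z - cn h i z) = P275NA.dz (l i j) z := by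
  have e : (fun w => (Real.log (h j (A.tr i j w)) : ℂ)) =ᶠ[𝓝 z]
      fun w => (Real.log (normSq (l i j w)) : ℂ) + (Real.log (h i w) : ℂ) := by
    filter_upwards [O_nhds a] with w hw
    rw [H.tr i j w hw, Real.log_mul (normSq_pos.2 (hl.ne hw)).ne' (H.pos i w hw.1).ne', ofReal_add]
  have k := wd_congr e 1
  rw [wd_add ((P275HK.cd_ofReal (cd_log_nsq (k := 1) (hl.an a) (hl.ne a))).differentiableAt
    one_ne_zero) ((P275HK.cd_ofReal (H.log.at a.1 i)).differentiableAt (by simp))] at k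
  have k' := P275HK.dz_comp (f := fun w => (Real.log (h j w) : ℂ))
    ((P275HK.cd_ofReal (H.log.at (tr_ball a) j)).differentiableAt (by simp)) (df_tr a)
  rw [P275HK.dz_hol (df_tr a), mul_comm (cn h j _), ← dz_log_nsq (hl.an a) (hl.ne a)]
  exact congrArg _ (sub_eq_of_eq_add (k'.symm.trans k))

variable [ChartedSpace (Cm 1) C] [IsManifold 𝓘(ℂ, Cm 1) ω C] [Nc C]

theorem d_hol {x : C} {f : C → ℂ} {φ : ℂ → ℂ} (hf : Sa 1 x f) (h : AnalyticAt ℂ φ (f x)) :
    (dgG 1 x).d (gm 1 x fun y => φ (f y)) =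
      gm 1 x (fun y => P275NA.dz φ (f y)) * (dgG 1 x).d (gm 1 x f) := by
  have k : Ev φ (f x) := h.eventually_analyticAt.mono fun _ a => cd_an a
  rw [d_gm_comp hf k (hf.comp k.dz) (hf.comp k.db), gm_congr (f := fun y => P281Z.Hm.wb 1 φ (f y))
    (g := fun _ => 0) ((hf.cont.eventually h.eventually_analyticAt).mono fun _ a =>
      P275HK.db_hol a), gm_zero, zero_mul, add_zero]

/-- **the integral of the first Chern class is the degree** -/
theorem itK_cq [CompactSpace C] (hA : IsA A) (hl : A.Cc l) :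
    itK 1 C (cq (lbC A hl)) = -(Real.pi * A.deg l : ℝ) := by
  have H := hl.mt
  have H2 := H.of_le (m := 2) two_le
  have v1 : A.Sm ∞ fun i z => ((-A.cv (A.mt l) i z : ℝ) : ℂ) :=
    Sm.ofReal fun i => (H.sm_cv (by simp) i).neg
  have v2 : A.Dn fun i z => ((-A.cv (A.mt l) i z : ℝ) : ℂ) :=
    (H2.dn_cv hl).neg.lin ofRealCLM.toLinearMap
  have dw : (dgF 1 C).d (Fr.of (om hA v1 v2)) = 0 := top_Zf (d := 1) (om_Dg hA v1 v2)
  have ev : ∀ i, ∀ x ∈ (A.e i).source, Ev (cn (A.mt l) i) (A.e i x) := fun i x m =>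
    Ev.dz ((isOpen_ball.eventually_mem (map_src m)).mono fun _ a =>
      P275HK.cd_ofReal (H.log.at a i))
  have sa := fun i x m => (sa_e hA m).comp (ev i x m)
  rw [cq_germ (lbC A hl) (F := Fr.of (om hA v1 v2)) (om_Dg hA v1 v2) dw
    (fun i x => -(gm 1 x (fun y => cn (A.mt l) i (A.e i y)) * (dgG 1 x).d (gm 1 x (A.e i))))
    (fun i x m => ?_) (fun i x m => ?_) fun i j x m m' => ?_, cF_eq dw, itK_clT]
  · exact (itc_om hA v1 v2).trans (by rw [int_ofReal, int_neg, int_cv hl H2, ofReal_neg])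
  · obtain ⟨u, -, hu⟩ := gm_ev (sa i x m)
    obtain ⟨v, -, hv⟩ := gm_ev (sa_e hA m)
    refine ⟨-(u * (dgF 1 C).d v), ?_⟩
    filter_upwards [hu, hv] with y a b
    rw [a, b, map_neg, map_mul, (hom_gq y).d]
  · have hf := sa_e hA m
    rw [map_neg, (dgG 1 x).lb _ (gm_mem _), DG.dd, mul_zero, smul_zero, add_zero,
      d_gm_comp hf (ev i x m) (hf.comp (ev i x m).dz) (hf.comp (ev i x m).db), add_mul, mul_assoc,
      sq1 (d_gm_mem _), mul_zero, zero_add, mul_assoc, cm1 (d_gm_mem _) (d_gm_mem _), mul_neg,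
      neg_neg, gq_om hA v1 v2 m]
    refine congrArg (· * _) (gm_congr ?_)
    filter_upwards [(A.e i).open_source.mem_nhds m] with y a
    rw [cv_eq, neg_neg]
    exact lp_eq (H2.log.at (map_src a) i)
  · have hf := sa_e hA m
    have o := mem_O m m'
    have k : ∀ {φ : ℂ → ℂ}, AnalyticAt ℂ φ (A.e i x) → Ev φ (A.e i x) := fun h =>
      h.eventually_analyticAt.mono fun _ a => cd_an a
    have s1 := hf.comp (k (hl.an o))
    have s2 := hf.comp (k (an_tr o)).dz
    refine ⟨s1, ?_⟩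
    rw [gm_congr (f := A.e j) (g := fun y => A.tr i j (A.e i y))
      (eventually_of_mem ((A.e i).open_source.mem_nhds m) fun _ a => (tr_e a).symm),
      d_hol hf (an_tr o), neg_sub_neg, ← mul_assoc, ← sub_mul, ← mul_assoc,
      ← gm_mul (sa j x m') s2, ← gm_sub ((sa j x m').mul s2) (sa i x m)]
    refine Eq.trans (congrArg (· * _) ((gm_mul s1 (((sa j x m').mul s2).sub (sa i x m))).symm.trans
      (gm_congr ?_))) (d_hol hf (hl.an o)).symm
    filter_upwards [(A.e i).open_source.mem_nhds m, (A.e j).open_source.mem_nhds m'] with y a b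
    rw [← tr_e (j := j) a]
    exact cn_law hl H (mem_O a b)

omit [ChartedSpace (Cm 1) C] [IsManifold 𝓘(ℂ, Cm 1) ω C] in
theorem cq_ne (hl : A.Cc l) (h : A.deg l ≠ 0) : cq (lbC A hl) ≠ 0 := fun e => by
  letI := P275MK.csA A
  haveI := (isA A).mf
  haveI := A.compactSpace
  have := itK_cq (isA A) hl
  rw [e, map_zero, zero_eq_neg, ofReal_eq_zero] at this
  exact mul_ne_zero Real.pi_ne_zero h this

omit [ChartedSpace (Cm 1) C] [IsManifold 𝓘(ℂ, Cm 1) ω C] in
/-- **OP** -/
theorem op [Nonempty C] (A : P275GC.At C) : OP A :=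
  ⟨Classical.arbitrary C, cq_ne _ ((deg_ox A _).trans_ne one_ne_zero)⟩

end Vale.Agent.P275NM
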