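import Vale.Agent.P275NM.Op
import Vale.Agent.P275OI.Pk
import Vale.Agent.P275AD.Rpa

/-!
# P275, block OPW: reduction to the weights
-/

open Vale.Agent.P275Z Vale.Agent.P275OI

namespace Vale.Agent.P275NM

theorem curvS (S : Sit) : CURV S.C := (P275AD.atl S).elim fun T => curv T.A

/-- **OPW** from the weights -/
theorem opw (h : MV0 ∧ LHP) (hw : WOU) : OPW (IsU h) :=
  opw_of h (fun _ T _ => P275CM.hkf T.std T.std.two (curv T.A) (op T.A)) curvS hw

end Vale.Agent.P275NM
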